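import Crest.Agent.N49.Gb.Gm

/-!
# Row 49 (helper24): (L) on shapes with the numerics solved
-/

set_option autoImplicit false
set_option linter.unusedSectionVars false
set_option synthInstance.maxSize 1024

open Finset Function Filter Topology

noncomputable section

namespace Crest.Agent.N49.Gb
open L Po Tw

theorem ex_c (n : ℕ) {η : ℝ} (h : 0 < η) : ∃ c : ℝ, 1 < c ∧ c ≤ 2 ∧ c ^ n ≤ 1 + η := by
  have a : ∀ᶠ c : ℝ in 𝓝 1, c ^ n ≤ 1 + η :=
    ((continuous_pow n).tendsto 1).eventually_le_const (by simpa using h)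
  have b : ∀ᶠ c : ℝ in 𝓝 1, c ≤ 2 := eventually_le_nhds one_lt_two
  obtain ⟨c, ⟨h1, h2⟩, h3⟩ := (((a.and b).filter_mono nhdsWithin_le_nhds).and
    (self_mem_nhdsWithin (s := Set.Ioi (1 : ℝ)))).exists
  exact ⟨c, h3, h2, h1⟩

/-- **(L) on shapes, contrapositive form**: a small count forces a large face grid -/
theorem lnum (k : ℕ) : ∃ (c0 η : ℝ) (a j : ℕ), 1 < c0 ∧ c0 ≤ 2 ∧ 0 < η ∧ η ≤ 1 ∧
    ∀ (m q : ℕ) (τ : ℝ), Even q → j * m ≤ q → 0 < τ → τ ≤ 1 / 2 ^ (a + 12 * (q + 2) ^ (k + 1)) →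
    ∀ {σ ι : Type} [DecidableEq σ] [Fintype ι] [DecidableEq ι] {T : TS σ} {col : ι → σ}
      {W0 : Finset (ι →₀ ℕ)} {ε : ι → ℤ} {v z : (ι →₀ ℕ) → ℝ}, GM q T col W0 ε v z τ →
    ∀ (A : Finset ι) (t : ι → ι → ℤ) (f : ι → (T.C → ℤ) → ℝ), #A ≤ k → (∀ i ∈ A, t i i = 0) →
      (∀ i x, 0 ≤ f i x) → (∀ i x, f i x ≤ 2 ^ m) →
      (∀ i ∈ A, 1 - η ≤ (T.shape col W0 ε (dk v)).E fun y => f i (T.pt col W0 y (t i))) →
      (T.shape col W0 ε (dk v)).E (fun y => ∏ i ∈ A, f i (T.pt col W0 y (t i))) < 1 / 2 →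
      ∃ i ∈ A, c0 ^ #(P q (A.erase i)) < (Gs T col W0 ε v (Gd i (A.erase i))).E fun y =>
        ∏ e ∈ P q (A.erase i), f i (vx T col W0 ε v (Gd i (A.erase i)) y (t i) e) := by
  have η0 : (0 : ℝ) < 1 / (6 * 20 ^ k) := by positivity
  have p20 : (1 : ℝ) ≤ 20 ^ k := one_le_pow₀ (by norm_num)
  obtain ⟨c, c1, c2, c3⟩ := ex_c (3 * k) η0
  obtain ⟨j, hj⟩ := pow_unbounded_of_one_lt (2 : ℝ) c1
  obtain ⟨a, ha⟩ := exists_pow_lt_of_lt_one (show 0 < min (((c - 1) / 2) ^ 4 / 256)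
    (min ((c - 1) / 8) (1 / (6 * 20 ^ k) / 2)) from lt_min (by have := sub_pos.2 c1; positivity)
      (lt_min (by linarith) (by positivity))) (show (1 / 2 : ℝ) < 1 by norm_num)
  rw [lt_min_iff, lt_min_iff] at ha
  obtain ⟨a1, a2, a3⟩ := ha
  refine ⟨(1 + c) / 2, 1 / (6 * 20 ^ k), a, j, by linarith, by linarith, η0,
    (div_le_one (by positivity)).2 (by linarith), fun m q τ ev hq τ0 hτ => ?_⟩
  intro σ ι _ _ _ T col W0 ε v z h A t f hA ht f0 fB mean sm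
  by_contra! grid
  rw [pow_add, ← one_div_mul_one_div, ← one_div_pow] at hτ
  have t1 : τ ≤ (1 / 2) ^ a := hτ.trans (mul_le_of_le_one_right (by positivity)
    ((div_le_one (by positivity)).2 (one_le_pow₀ one_le_two)))
  have n1 : (q + 2) ^ #A ≤ (q + 2) ^ k := Nat.pow_le_pow_right (by omega) hA
  have n2 : (q + 2) ^ k ≤ (q + 2) ^ (k + 1) := Nat.pow_le_pow_right (by omega) (by omega)
  have := h.lrel ev A ht f0 (c0 := (1 + c) / 2) (c := c) (η := 1 / (6 * 20 ^ k))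
    (δ := (c - 1) / 2 / 2 ^ (q + 2) ^ #A) (by linarith)
    (fun i x => (fB i x).trans ((pow_le_pow_left₀ zero_le_two hj.le m).trans (by
      rw [← pow_mul]; exact pow_le_pow_right₀ c1.le (by omega)))) (by nlinarith) τ0 (by linarith)
    ((pow_le_pow_right₀ c1.le (by omega)).trans c3) (by have := sub_pos.2 c1; positivity)
    (by rw [mul_div_cancel₀ _ (by positivity)]; linarith) (by
      have b1 : (1 + 2 * τ) ^ 3 ≤ 2 ^ 3 := pow_le_pow_left₀ (by positivity) (by linarith) 3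
      have b2 : ((c ^ (q + 2)) ^ (q + 2) ^ #A) ^ 8 ≤ 2 ^ (8 * (q + 2) ^ (k + 1)) := by
        rw [← pow_mul, ← pow_mul]
        refine (pow_le_pow_left₀ (by positivity) c2 _).trans (pow_le_pow_right₀ one_le_two ?_)
        rw [pow_succ']; nlinarith
      have b3 : ((2 : ℝ) ^ (q + 2) ^ #A) ^ 4 ≤ 2 ^ (4 * (q + 2) ^ (k + 1)) := by
        rw [← pow_mul]; exact pow_le_pow_right₀ one_le_two (by omega)
      have b4 : (2 : ℝ) ^ (12 * (q + 2) ^ (k + 1)) =
          2 ^ (8 * (q + 2) ^ (k + 1)) * 2 ^ (4 * (q + 2) ^ (k + 1)) := by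
        rw [← pow_add]; congr 1; ring
      rw [mul_one_div, le_div_iff₀ (by positivity), b4] at hτ
      rw [div_pow, le_div_iff₀ (by positivity)]
      refine (mul_le_mul (mul_le_mul (mul_le_mul_of_nonneg_left b1 (by positivity)) b2
        (by positivity) (by positivity)) b3 (by positivity) (by positivity)).trans ?_
      linarith) grid mean A Subset.rfl
  have e : (20 : ℝ) ^ #A ≤ 20 ^ k := pow_le_pow_right₀ (by norm_num) hA
  have : 3 * 20 ^ #A * (1 / (6 * 20 ^ k) : ℝ) ≤ 1 / 2 := by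
    rw [mul_one_div, div_le_iff₀ (by positivity)]; linarith
  linarith

end Crest.Agent.N49.Gb

end
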