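import Crest.Agent.N49.Tw.Defs

/-!
# Row 49 (helper24): the weight of a shape with a diagonal kernel is a product over the words
-/

set_option autoImplicit false
set_option linter.unusedSectionVars false

open Matrix MvPolynomial Finset

noncomputable section

namespace Crest.Agent.N49.Gb
open Po Tw

theorem qf_blocks {C J : Type} [Fintype C] [DecidableEq C] [Fintype J] [DecidableEq J]
    {D : J → Type} [∀ j, Fintype (D j)] [∀ j, DecidableEq (D j)] (e : (Σ j, D j) ≃ C)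
    (K : Matrix C C ℝ) (M : ∀ j, Matrix (D j) (D j) ℝ) (hM : ∀ j, IsUnit (M j).det)
    (h : K.submatrix e e = blockDiagonal' M) (x : C → ℝ) :
    qf K⁻¹ x = ∑ j, qf (M j)⁻¹ fun a : D j => x (e ⟨j, a⟩) := by
  have a : K⁻¹.submatrix e e = blockDiagonal' fun j => (M j)⁻¹ := by
    rw [← inv_submatrix_equiv, h]
    refine inv_eq_right_inv ?_
    rw [← blockDiagonal'_mul, ← blockDiagonal'_one]
    exact congrArg _ (funext fun j => mul_nonsing_inv _ (hM j))
  have b : ∀ p p', K⁻¹ (e p) (e p') = blockDiagonal' (fun j => (M j)⁻¹) p p' := fun p p' =>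
    congrFun (congrFun a p) p'
  simp only [qf, dotProduct, mulVec]
  rw [← e.sum_comp, Fintype.sum_sigma]
  refine sum_congr rfl fun j _ => sum_congr rfl fun c _ => congrArg _ ?_
  rw [← e.sum_comp, Fintype.sum_sigma, sum_eq_single j (fun j' _ n => ?_) (by simp)]
  · simp only [b, blockDiagonal'_apply_eq]
  · simp only [b, blockDiagonal'_apply_ne _ _ _ n.symm, zero_mul, sum_const_zero]

variable {σ τ τ' : Type} (T : TS σ)

theorem hz_map {R R' : Type} [CommRing R] [Algebra ℝ R] [CommRing R'] [Algebra ℝ R']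
    (φ : R →ₐ[ℝ] R') (e : R) (y : T.C → R) (F : T.C) :
    φ (T.hz e y F) = T.hz (φ e) (fun c => φ (y c)) F := by
  simp only [TS.hz, map_sum, map_mul, map_pow, ← comp_aeval_apply]

variable [DecidableEq σ] [DecidableEq τ] [DecidableEq τ'] [Fintype τ] [Fintype τ']

theorem coeff_Yp {R : Type} [CommSemiring R] (col : τ → σ) (W : Finset (τ →₀ ℕ))
    (y : T.Wd col W → R) (F : T.C) (ν : τ →₀ ℕ) : coeff ν (T.Yp col W y F) =
      if h : ν ∈ W ∧ ν.mapDomain col = T.deg F then y ⟨(F, ⟨ν, h.1⟩), h.2⟩ else 0 := by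
  simp only [TS.Yp, coeff_sum, coeff_monomial]
  split_ifs with h
  · rw [sum_eq_single ⟨(F, ⟨ν, h.1⟩), h.2⟩ (fun p hp n => if_neg fun k => n ?_) (by simp), if_pos rfl]
    exact Subtype.ext (Prod.ext (mem_filter.1 hp).2 (Subtype.ext k))
  · refine sum_eq_zero fun p hp => if_neg fun k : p.1.2.1 = ν => h ⟨k ▸ p.1.2.2, ?_⟩
    rw [← k, p.2, (mem_filter.1 hp).2]

/-- the errors on a word -/
def uw (col : τ → σ) (W : Finset (τ →₀ ℕ)) (ε : τ → ℤ) (y : T.Wd col W → ℝ) (μ : τ →₀ ℕ)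
    (F : T.C) : ℝ := coeff μ (T.hz (∑ a, ε a • X a) (T.Yp col W y) F)

theorem shape_u (col : τ → σ) (W : Finset (τ →₀ ℕ)) (ε : τ → ℤ) (Kw : (τ →₀ ℕ) → (τ →₀ ℕ) → ℝ)
    (y : T.Wd col W → ℝ) (p : T.Wd col W) :
    (T.shape col W ε Kw).u y p = uw T col W ε y p.1.2.1 p.1.1 := by
  have := hz_map T (mapAlgHom (σ := τ) (aeval y : MvPolynomial (T.Wd col W) ℝ →ₐ[ℝ] ℝ))
    (∑ a, ε a • X a) (T.Yp col W (X (R := ℝ))) p.1.1
  have a : (fun c => mapAlgHom (σ := τ) (aeval y : MvPolynomial (T.Wd col W) ℝ →ₐ[ℝ] ℝ)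
      (T.Yp col W (X (R := ℝ)) c)) = T.Yp col W y := funext fun c => by
    simp [TS.Yp, map_monomial]
  rw [a] at this
  simp only [map_sum, map_zsmul, mapAlgHom_apply, map_X] at this
  rw [uw, ← this, coeff_map]
  rfl

/-- the weight of one word -/
def wd (d : σ →₀ ℕ) (r : ℝ) (x : T.C → ℝ) : ℝ :=
  gs (r • T.K.submatrix (Subtype.val : {F // d = T.deg F} → T.C) Subtype.val)⁻¹ fun F => x F.1

theorem wd_pos (d : σ →₀ ℕ) (r : ℝ) (x : T.C → ℝ) : 0 < wd T d r x := gs_pos _ _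

/-- the coordinates of a shape, word by word -/
def wEq (col : τ → σ) (W : Finset (τ →₀ ℕ)) :
    (Σ μ : W, {F // μ.1.mapDomain col = T.deg F}) ≃ T.Wd col W where
  toFun p := ⟨(p.2.1, p.1), p.2.2⟩
  invFun p := ⟨p.1.2, p.1.1, p.2⟩
  left_inv _ := rfl
  right_inv _ := rfl

theorem shape_wt (hK : T.K.PosDef) (col : τ → σ) (W : Finset (τ →₀ ℕ)) (ε : τ → ℤ)
    {v : (τ →₀ ℕ) → ℝ} (hv : ∀ μ ∈ W, 0 < v μ) (y : T.Wd col W → ℤ) :
    (T.shape col W ε (dk v)).wt y =
      ∏ μ ∈ W, wd T (μ.mapDomain col) (v μ) (uw T col W ε (zc y) μ) := by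
  have := qf_blocks (wEq T col W) (T.shape col W ε (dk v)).K (fun μ => v μ • T.K.submatrix
    (Subtype.val : {F // μ.1.mapDomain col = T.deg F} → T.C) Subtype.val)
    (fun μ => ((hK.submatrix Subtype.val_injective).smul (hv _ μ.2)).det_pos.ne'.isUnit)
    (by
      ext ⟨μ, F⟩ ⟨μ', F'⟩
      by_cases c : μ = μ'
      · subst c
        rw [blockDiagonal'_apply_eq]
        simp [TS.shape, wEq, dk, mul_comm]
      · rw [blockDiagonal'_apply_ne _ _ _ c]
        simp [TS.shape, wEq, dk, c]) ((T.shape col W ε (dk v)).u (zc y))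
  rw [TS.wt, gs, ← prod_coe_sort W]
  erw [this]
  simp only [wd, gs, ← Real.exp_sum, mul_sum, sum_neg_distrib]
  congr 2
  refine sum_congr rfl fun μ _ => congrArg _ (congrArg _ (funext fun F => ?_))
  exact shape_u T col W ε _ _ _

theorem kill_eps {R : Type} [CommRing R] {f : τ' → τ} (hf : Function.Injective f) (ε : τ → ℤ) :
    killCompl hf (∑ a, ε a • X a : MvPolynomial τ R) = ∑ a, ε (f a) • X a := by
  rw [map_sum, ← sum_subset (subset_univ (univ.image f)) fun a _ k => ?_,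
    sum_image fun _ _ _ _ e => hf e]
  · refine sum_congr rfl fun a _ => ?_
    rw [map_zsmul, ← rename_X f a, killCompl_rename_app]
  · rw [map_zsmul, killCompl, aeval_X, dif_neg fun ⟨b, hb⟩ => k (mem_image.2 ⟨b, mem_univ _, hb⟩),
      smul_zero]

theorem uw_kill (col : τ → σ) (W : Finset (τ →₀ ℕ)) (ε : τ → ℤ) (y : T.Wd col W → ℝ)
    {f : τ' → τ} (hf : Function.Injective f) (m : τ' →₀ ℕ) (F : T.C) :
    uw T col W ε y (m.mapDomain f) F =
      coeff m (T.hz (∑ a, ε (f a) • X a) (fun c => killCompl hf (T.Yp col W y c)) F) := by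
  rw [uw, ← coeff_killCompl hf, hz_map, kill_eps]

theorem eval_kill {R : Type} [CommRing R] {f : τ' → τ} (hf : Function.Injective f) (t : τ → R)
    (ht : ∀ a, a ∉ Set.range f → t a = 0) (P : MvPolynomial τ R) :
    eval t P = eval (t ∘ f) (killCompl hf P) := by
  have : (aeval t : MvPolynomial τ R →ₐ[R] R) = (aeval (t ∘ f)).comp (killCompl hf) :=
    algHom_ext fun a => by
      by_cases c : a ∈ Set.range f
      · obtain ⟨b, rfl⟩ := c
        rw [AlgHom.comp_apply, ← rename_X f b, killCompl_rename_app]; simp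
      · rw [AlgHom.comp_apply, killCompl, aeval_X, aeval_X, dif_neg c, map_zero, ht a c]
  exact DFunLike.congr_fun this P

end Crest.Agent.N49.Gb

end
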