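import Crest.Agent.N49.Gb.Rel
import Crest.Agent.N49.Gb.Sw

/-!
# Row 49 (helper24): grid shapes of a typed structure and the finite grids of `Gb.Core`
-/

set_option autoImplicit false
set_option linter.unusedSectionVars false
set_option synthInstance.maxSize 1024

open MvPolynomial Finset Function Filter Topology

noncomputable section

namespace Crest.Agent.N49.Gb
open L Po Tw

variable {σ ι : Type} [DecidableEq σ] [Fintype ι] [DecidableEq ι] {q : ℕ}

/-- the word `μ` written with the clones `e` -/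
def lift (e : E ι q) (μ : ι →₀ ℕ) : ι × Fin (q + 2) →₀ ℕ := μ.mapDomain fun j => (j, e j)
open Classical in
/-- the cloned words of a shape -/
def IW (W0 : Finset (ι →₀ ℕ)) (A : Finset ι → E ι q → Prop) : Finset ((ι →₀ ℕ) × E ι q) :=
  (W0 ×ˢ univ).filter fun p => p.2 ∈ P q p.1.support ∧ A p.1.support p.2
@[inherit_doc IW]
def GW (W0 : Finset (ι →₀ ℕ)) (A : Finset ι → E ι q → Prop) : Finset (ι × Fin (q + 2) →₀ ℕ) :=
  (IW W0 A).image fun p => lift p.2 p.1
/-- the point `t` written with the clones `e` -/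
def tv (t : ι → ℤ) (e : E ι q) : ι × Fin (q + 2) → ℤ := fun p => if p.2 = e p.1 then t p.1 else 0
/-- the clones used by a word -/
def un (ν : ι × Fin (q + 2) →₀ ℕ) : E ι q :=
  fun j => if h : ∃ l, ν (j, l) ≠ 0 then h.choose else 0

variable {T : TS σ} {col : ι → σ} {W0 : Finset (ι →₀ ℕ)} {ε : ι → ℤ} {v z : (ι →₀ ℕ) → ℝ}
  {A : Finset ι → E ι q → Prop} {e : E ι q} {μ : ι →₀ ℕ}
  {S : Finset ι}

theorem mem_IW {p : (ι →₀ ℕ) × E ι q} :
    p ∈ IW W0 A ↔ p.1 ∈ W0 ∧ p.2 ∈ P q p.1.support ∧ A p.1.support p.2 := by simp [IW]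

theorem lift_apply (e : E ι q) (μ : ι →₀ ℕ) (j : ι) (l : Fin (q + 2)) :
    lift e μ (j, l) = if l = e j then μ j else 0 := by
  have inj : Injective fun j : ι => (j, e j) := fun _ _ k => congrArg Prod.fst k
  split_ifs with c
  · rw [c]; exact Finsupp.mapDomain_apply inj μ j
  · exact Finsupp.mapDomain_of_notMem_range _ _ fun ⟨i, k⟩ => c (by
      obtain ⟨rfl, k'⟩ := Prod.mk.inj k; exact k'.symm)

theorem map_lift {β : Type} (g : ι → β) (e : E ι q) (μ : ι →₀ ℕ) :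
    (lift e μ).mapDomain (g ∘ Prod.fst) = μ.mapDomain g := by
  rw [lift, ← Finsupp.mapDomain_comp]; rfl

theorem fst_lift (e : E ι q) (μ : ι →₀ ℕ) : (lift e μ).mapDomain Prod.fst = μ :=
  (map_lift id e μ).trans Finsupp.mapDomain_id

theorem un_lift (e : E ι q) (μ : ι →₀ ℕ) : un (lift e μ) = mask μ.support e := by
  funext j
  unfold un mask
  split_ifs with h c c
  · have := h.choose_spec
    rw [lift_apply] at this
    by_contra n; exact this (if_neg n)
  · obtain ⟨l, k⟩ := h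
    rw [lift_apply, Finsupp.notMem_support_iff.1 c, ite_self] at k
    exact absurd rfl k
  · exact absurd ⟨e j, by rw [lift_apply, if_pos rfl]; exact Finsupp.mem_support_iff.1 c⟩ h
  · rfl

theorem mask_P (S : Finset ι) (e : E ι q) : mask S e ∈ P q S := mem_P.2 fun _ c => if_neg c
theorem mask_eq (h : e ∈ P q S) : mask S e = e := funext fun j => by
  unfold mask; split_ifs with c
  · rfl
  · exact (mem_P.1 h j c).symm
theorem lift_mask (e : E ι q) (μ : ι →₀ ℕ) : lift (mask μ.support e) μ = lift e μ :=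
  Finsupp.mapDomain_congr fun j c => by rw [mask, if_pos c]

theorem mem_GW {ν : ι × Fin (q + 2) →₀ ℕ} : ν ∈ GW W0 A ↔
    (ν.mapDomain Prod.fst, un ν) ∈ IW W0 A ∧ lift (un ν) (ν.mapDomain Prod.fst) = ν := by
  refine ⟨fun h => ?_, fun h => mem_image.2 ⟨_, h.1, h.2⟩⟩
  obtain ⟨p, hp, rfl⟩ := mem_image.1 h
  rw [fst_lift, un_lift, mask_eq (mem_IW.1 hp).2.1]
  exact ⟨hp, rfl⟩

theorem lift_mem (dA : Dn A) (he : e ∈ P q S) (hA : A S e) (hμ : μ.support ⊆ S) :
    lift e μ ∈ GW W0 A ↔ μ ∈ W0 := by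
  rw [mem_GW, fst_lift, un_lift, lift_mask, mem_IW]
  exact ⟨fun h => h.1.1, fun h => ⟨⟨h, mask_P _ _, dA S e he hA _ hμ⟩, rfl⟩⟩

/-- grid shapes are down-closed -/
theorem GW_dn (h0 : Tw.Dn W0) (dA : Dn A) : Tw.Dn (GW W0 A) := fun ν hν ν' le => by
  obtain ⟨p, hp, rfl⟩ := mem_image.1 hν
  obtain ⟨h1, h2, h3⟩ := mem_IW.1 hp
  have inj : Injective fun j : ι => (j, p.2 j) := fun _ _ k => congrArg Prod.fst k
  have a : lift p.2 (ν'.comapDomain _ inj.injOn) = ν' :=
    Finsupp.mapDomain_comapDomain _ inj _ fun x hx => by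
      have := le x
      rw [lift_apply] at this
      by_cases c : x.2 = p.2 x.1
      · exact ⟨x.1, Prod.ext rfl c.symm⟩
      · rw [if_neg c] at this
        exact absurd (Nat.le_zero.1 this) (Finsupp.mem_support_iff.1 hx)
  have b : ν'.comapDomain _ inj.injOn ≤ p.1 := fun j => by
    have := le (j, p.2 j)
    rwa [lift_apply, if_pos rfl] at this
  rw [← a, lift_mem dA h2 h3 (Finsupp.support_mono b)]
  exact h0 _ h1 _ b

variable (T col W0 ε v z)

/-- the grid shape -/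
def Gs (A : Finset ι → E ι q → Prop) : TS (ι × Fin (q + 2)) :=
  T.shape (col ∘ Prod.fst) (GW W0 A) (ε ∘ Prod.fst) (dk fun ν => v (ν.mapDomain Prod.fst))
/-- the vertex `e` of the face `t` -/
def vx (A : Finset ι → E ι q → Prop) (y : (Gs T col W0 ε v A).C → ℤ) (t : ι → ℤ) (e : E ι q) :
    T.C → ℤ := T.pt (col ∘ Prod.fst) (GW W0 A) y (tv t e)
/-- the normalising constant -/
def zz (A : Finset ι → E ι q → Prop) : ℝ := ∏ p ∈ IW W0 A, z p.1
/-- supports of the coordinates -/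
def spp : T.Wd col W0 → Finset ι := fun p => p.1.2.1.support
/-- the place of a coordinate of the grid shape -/
def ch (A : Finset ι → E ι q → Prop) (p : T.Wd (col ∘ Prod.fst) (GW W0 A)) :
    T.Wd col W0 × E ι q :=
  (⟨(p.1.1, ⟨p.1.2.1.mapDomain Prod.fst, (mem_IW.1 (mem_GW.1 p.1.2.2).1).1⟩),
    Finsupp.mapDomain_comp.symm.trans p.2⟩, un p.1.2.1)
/-- boxes -/
abbrev Bx (B : ℕ) : Type := (Icc (-(B : ℤ)) B : Finset ℤ)
/-- the uniform law -/
def uf (B : ℕ) : Bx B → ℝ := fun _ => (Fintype.card (Bx B) : ℝ)⁻¹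
/-- the normalised weights of the faces -/
def WB (B : ℕ) (S : Finset ι) (x : T.Wd col W0 → Bx B) : ℝ :=
  ∏ μ ∈ W0 with μ.support = S, (∏ _F : {F // μ.mapDomain col = T.deg F},
    (Fintype.card (Bx B) : ℝ)) * wd T (μ.mapDomain col) (v μ)
      (uw T col W0 ε (fun p => ((x p : ℤ) : ℝ)) μ) / z μ

variable {T col W0 ε v z}

theorem ch_inj : Injective (ch T col W0 A) := fun p p' k => by
  have a : p.1.1 = p'.1.1 := congrArg (·.1.1.1) k
  have b : p.1.2.1.mapDomain Prod.fst = p'.1.2.1.mapDomain Prod.fst := congrArg (·.1.1.2.1) k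
  have c : un p.1.2.1 = un p'.1.2.1 := congrArg (·.2) k
  refine Subtype.ext (Prod.ext a (Subtype.ext ?_))
  rw [← (mem_GW.1 p.1.2.2).2, ← (mem_GW.1 p'.1.2.2).2, b, c]

theorem supp_val (m : S →₀ ℕ) : (m.mapDomain Subtype.val).support ⊆ S := fun j hj => by
  obtain ⟨a, -, rfl⟩ := mem_image.1 (Finsupp.mapDomain_support hj)
  exact a.2

theorem ex_val (h : μ.support ⊆ S) : ∃ m : S →₀ ℕ, m.mapDomain Subtype.val = μ :=
  ⟨μ.comapDomain _ Subtype.val_injective.injOn, Finsupp.mapDomain_comapDomain _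
    Subtype.val_injective _ fun j hj => ⟨⟨j, h hj⟩, rfl⟩⟩

theorem inj1 (S : Finset ι) (e : E ι q) : Injective fun j : S => (j.1, e j.1) :=
  fun _ _ k => Subtype.ext (congrArg Prod.fst k)

theorem kill_eq {R : Type} [CommRing R] (dA : Dn A) (he : e ∈ P q S) (hA : A S e)
    (y : T.Wd col W0 × E ι q → R) (F : T.C) :
    killCompl (inj1 S e) (T.Yp (col ∘ Prod.fst) (GW W0 A) (y ∘ ch T col W0 A) F) =
      killCompl (Subtype.val_injective (p := (· ∈ S))) (T.Yp col W0 (pt (spp T col W0) y e) F) := by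
  ext m
  have a : m.mapDomain (fun j : S => (j.1, e j.1)) = lift e (m.mapDomain Subtype.val) := by
    rw [lift, ← Finsupp.mapDomain_comp]; rfl
  rw [coeff_killCompl, coeff_killCompl, coeff_Yp, coeff_Yp]
  have b : (m.mapDomain (fun j : S => (j.1, e j.1)) ∈ GW W0 A ∧
      (m.mapDomain fun j : S => (j.1, e j.1)).mapDomain (col ∘ Prod.fst) = T.deg F) ↔
      m.mapDomain Subtype.val ∈ W0 ∧ (m.mapDomain Subtype.val).mapDomain col = T.deg F := by
    rw [a, lift_mem dA he hA (supp_val m), map_lift]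
  by_cases c : m.mapDomain Subtype.val ∈ W0 ∧ (m.mapDomain Subtype.val).mapDomain col = T.deg F
  · rw [dif_pos c, dif_pos (b.2 c)]
    refine congrArg y (Prod.ext (Subtype.ext (Prod.ext rfl (Subtype.ext ?_))) ?_)
    · exact (congrArg _ a).trans (fst_lift _ _)
    · exact (congrArg _ a).trans (un_lift _ _)
  · rw [dif_neg c, dif_neg fun k => c (b.1 k)]

theorem kill_dep {R : Type} [CommRing R] {x x' : T.Wd col W0 → R}
    (h : ∀ p, spp T col W0 p ⊆ S → x p = x' p) (F : T.C) :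
    killCompl (Subtype.val_injective (p := (· ∈ S))) (T.Yp col W0 x F) =
      killCompl (Subtype.val_injective (p := (· ∈ S))) (T.Yp col W0 x' F) := by
  ext m
  rw [coeff_killCompl, coeff_killCompl, coeff_Yp, coeff_Yp]
  split_ifs
  · exact h _ (supp_val m)
  · rfl

theorem uw_ch (dA : Dn A) (he : e ∈ P q μ.support) (hA : A μ.support e)
    (y : T.Wd col W0 × E ι q → ℝ) :
    uw T (col ∘ Prod.fst) (GW W0 A) (ε ∘ Prod.fst) (y ∘ ch T col W0 A) (lift e μ) =
      uw T col W0 ε (pt (spp T col W0) y e) μ := by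
  obtain ⟨m, hm⟩ := ex_val (Subset.refl μ.support)
  funext F
  have a : lift e μ = m.mapDomain (fun j : μ.support => (j.1, e j.1)) := by
    conv_lhs => rw [← hm, lift, ← Finsupp.mapDomain_comp]
    rfl
  have b := uw_kill T col W0 ε (pt (spp T col W0) y e) Subtype.val_injective m F
  rw [hm] at b
  rw [a, b, uw_kill T _ _ _ _ (inj1 _ e)]
  simp only [kill_eq dA he hA]
  rfl

theorem vx_ch (dA : Dn A) (he : e ∈ P q S) (hA : A S e) {t : ι → ℤ} (ht : ∀ j ∉ S, t j = 0)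
    (y : T.Wd col W0 × E ι q → ℤ) :
    vx T col W0 ε v A (y ∘ ch T col W0 A) t e = T.pt col W0 (pt (spp T col W0) y e) t := by
  funext F
  unfold vx TS.pt
  rw [eval_kill (inj1 S e), eval_kill (Subtype.val_injective (p := (· ∈ S))) t
    fun a k => ht a fun m => k ⟨⟨a, m⟩, rfl⟩, ← kill_eq dA he hA]
  · congr 2; funext j; simp [tv]
  · intro a k
    unfold tv; split_ifs with c
    · exact ht _ fun m => k ⟨⟨a.1, m⟩, Prod.ext rfl c.symm⟩
    · rfl

theorem pt_dep {t : ι → ℤ} (ht : ∀ j ∉ S, t j = 0) {x x' : T.Wd col W0 → ℤ}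
    (h : ∀ p, spp T col W0 p ⊆ S → x p = x' p) : T.pt col W0 x t = T.pt col W0 x' t := by
  funext F
  have k : ∀ a, a ∉ Set.range (Subtype.val (p := (· ∈ S))) → t a = 0 :=
    fun a k => ht a fun m => k ⟨⟨a, m⟩, rfl⟩
  unfold TS.pt
  rw [eval_kill Subtype.val_injective t k, eval_kill Subtype.val_injective t k, kill_dep h]

theorem WB_dep (B : ℕ) (S : Finset ι) : Dep (spp T col W0) S (WB T col W0 ε v z B S) :=
  fun x x' h => prod_congr rfl fun μ hμ => by
    obtain ⟨m, rfl⟩ := ex_val (mem_filter.1 hμ).2.subset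
    have : uw T col W0 ε (fun p => ((x p : ℤ) : ℝ)) (m.mapDomain Subtype.val) =
        uw T col W0 ε (fun p => ((x' p : ℤ) : ℝ)) (m.mapDomain Subtype.val) := funext fun F => by
      rw [uw_kill T _ _ _ _ Subtype.val_injective, uw_kill T _ _ _ _ Subtype.val_injective,
        funext (kill_dep (x := fun p => ((x p : ℤ) : ℝ)) (x' := fun p => ((x' p : ℤ) : ℝ))
          fun p k => by rw [h p k])]
    rw [this]

theorem WB_nn (hz : ∀ μ ∈ W0, 0 < z μ) (B : ℕ) (S : Finset ι) (x : T.Wd col W0 → Bx B) :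
    0 ≤ WB T col W0 ε v z B S x := prod_nonneg fun μ hμ => div_nonneg (mul_nonneg
  (prod_nonneg fun _ _ => Nat.cast_nonneg _) (wd_pos ..).le) (hz μ (mem_filter.1 hμ).1).le

theorem pr_uf (B : ℕ) : Pr (uf B) := ⟨fun _ => by unfold uf; positivity, by
  have : Nonempty (Bx B) := ⟨⟨0, by simp⟩⟩
  rw [show uf B = fun _ => (Fintype.card (Bx B) : ℝ)⁻¹ from rfl, sum_const, card_univ,
    nsmul_eq_mul, mul_inv_cancel₀ (Nat.cast_ne_zero.2 Fintype.card_ne_zero)]⟩

theorem zz_pos (hz : ∀ μ ∈ W0, 0 < z μ) : 0 < zz W0 z A := prod_pos fun _ h => hz _ (mem_IW.1 h).1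

theorem prod_IW (g : (ι →₀ ℕ) → E ι q → ℝ) : ∏ ν ∈ GW W0 A, g (ν.mapDomain Prod.fst) (un ν) =
    ∏ p ∈ IW W0 A, g p.1 p.2 := by
  have k : ∀ p ∈ IW W0 A, ((lift p.2 p.1).mapDomain Prod.fst, un (lift p.2 p.1)) = p :=
    fun p hp => by rw [fst_lift, un_lift, mask_eq (mem_IW.1 hp).2.1]
  rw [GW, prod_image fun p hp p' hp' e => by rw [← k p hp, ← k p' hp']; simp only [e]]
  exact prod_congr rfl fun p hp => by rw [fst_lift, un_lift, mask_eq (mem_IW.1 hp).2.1]

/-- the weights agree -/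
theorem PW_WB (hK : T.K.PosDef) (hv : ∀ μ ∈ W0, 0 < v μ) (dA : Dn A) (B : ℕ)
    (y : Cf ι (T.Wd col W0) (Bx B) q) :
    PW (spp T col W0) (wt (WB T col W0 ε v z B) A) y =
      (∏ _p : T.Wd (col ∘ Prod.fst) (GW W0 A), (Fintype.card (Bx B) : ℝ)) *
        (Gs T col W0 ε v A).wt (fun p => y (ch T col W0 A p)) / zz W0 z A := by
  classical
  let g : (ι →₀ ℕ) → E ι q → ℝ := fun μ e => (∏ _F : {F // μ.mapDomain col = T.deg F},
    (Fintype.card (Bx B) : ℝ)) * wd T (μ.mapDomain col) (v μ)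
      (uw T col W0 ε (fun p => (((pt (spp T col W0) y e p : Bx B) : ℤ) : ℝ)) μ) / z μ
  have a : PW (spp T col W0) (wt (WB T col W0 ε v z B) A) y = ∏ p ∈ IW W0 A, g p.1 p.2 := by
    have : ∏ p ∈ IW W0 A, g p.1 p.2 = ∏ μ ∈ W0, ∏ e ∈ P q μ.support,
        if A μ.support e then g μ e else 1 := by
      rw [IW, prod_filter, prod_product]
      refine prod_congr rfl fun μ _ => ?_
      simp only [ite_and, prod_ite_mem, univ_inter]
    rw [this, ← prod_fiberwise W0 (·.support)]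
    refine prod_congr rfl fun S _ => ?_
    rw [prod_congr rfl fun μ (hμ : μ ∈ W0.filter (·.support = S)) => by rw [(mem_filter.1 hμ).2],
      Finset.prod_comm]
    refine prod_congr rfl fun e _ => ?_
    unfold wt; split_ifs
    · rfl
    · exact prod_const_one.symm
  have b : (∏ _p : T.Wd (col ∘ Prod.fst) (GW W0 A), (Fintype.card (Bx B) : ℝ)) =
      ∏ p ∈ IW W0 A, ∏ _F : {F // p.1.mapDomain col = T.deg F}, (Fintype.card (Bx B) : ℝ) := by
    rw [← (wEq T (col ∘ Prod.fst) (GW W0 A)).prod_comp, Fintype.prod_sigma,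
      ← prod_IW fun μ _ => ∏ _F : {F // μ.mapDomain col = T.deg F}, (Fintype.card (Bx B) : ℝ),
      ← prod_coe_sort (GW W0 A)]
    refine prod_congr rfl fun ν _ => ?_
    rw [← Finsupp.mapDomain_comp]
  have c : (Gs T col W0 ε v A).wt (fun p => y (ch T col W0 A p)) = ∏ p ∈ IW W0 A,
      wd T (p.1.mapDomain col) (v p.1)
        (uw T col W0 ε (fun c => (((pt (spp T col W0) y p.2 c : Bx B) : ℤ) : ℝ)) p.1) := by
    rw [← prod_IW fun μ e => wd T (μ.mapDomain col) (v μ)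
      (uw T col W0 ε (fun c => (((pt (spp T col W0) y e c : Bx B) : ℤ) : ℝ)) μ)]
    refine (shape_wt T hK _ _ _ (fun ν hν => hv _ (mem_IW.1 (mem_GW.1 hν).1).1) _).trans
      (prod_congr rfl fun ν hν => ?_)
    obtain ⟨h1, h2⟩ := mem_GW.1 hν
    have := uw_ch (T := T) (col := col) (W0 := W0) (ε := ε) dA (mem_IW.1 h1).2.1 (mem_IW.1 h1).2.2
      fun p => ((y p : ℤ) : ℝ)
    rw [h2] at this
    rw [Finsupp.mapDomain_comp]
    exact congrArg _ this
  rw [a, b, c, zz, ← prod_mul_distrib, ← prod_div_distrib]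

theorem sum_box {D : Type} [Fintype D] [DecidableEq D] (B : ℕ) (h : (D → ℤ) → ℝ) :
    ∑ y : D → Bx B, h (fun p => y p) =
      ∑ y ∈ Fintype.piFinset fun _ : D => Icc (-(B : ℤ)) B, h y :=
  sum_bij (fun y _ p => y p) (fun y _ => Fintype.mem_piFinset.2 fun p => (y p).2)
    (fun _ _ _ _ k => funext fun p => Subtype.ext (congrFun k p))
    (fun y hy => ⟨fun p => ⟨y p, Fintype.mem_piFinset.1 hy p⟩, mem_univ _, rfl⟩) fun _ _ => rfl

theorem tendsto_box {D : Type} [Fintype D] [DecidableEq D] {h : (D → ℤ) → ℝ} (hs : Summable h) :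
    Tendsto (fun B : ℕ => ∑ y ∈ Fintype.piFinset fun _ : D => Icc (-(B : ℤ)) B, h y) atTop
      (𝓝 (∑' y, h y)) := by
  refine hs.hasSum.comp (tendsto_atTop_finset_of_monotone (fun B B' k =>
    Fintype.piFinset_subset _ _ fun _ => Icc_subset_Icc (by omega) (by omega)) fun y =>
      ⟨univ.sup fun p => (y p).natAbs, Fintype.mem_piFinset.2 fun p => ?_⟩)
  have := le_sup (f := fun p => (y p).natAbs) (mem_univ p)
  rw [mem_Icc]; beta_reduce at this; omega

/-- **finite grids are truncations of the grid shape** -/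
theorem trunc_eq (hK : T.K.PosDef) (hv : ∀ μ ∈ W0, 0 < v μ) (dA : Dn A) (B : ℕ)
    (g : ((Gs T col W0 ε v A).C → ℤ) → ℝ) :
    Ex (gl q fun _ => uf B) (fun y => PW (spp T col W0) (wt (WB T col W0 ε v z B) A) y *
      g fun p => y (ch T col W0 A p)) =
    (∑ y ∈ Fintype.piFinset fun _ : (Gs T col W0 ε v A).C => Icc (-(B : ℤ)) B,
      (Gs T col W0 ε v A).wt y * g y) / zz W0 z A := by
  have := Ex_comp (μ := fun _ : T.Wd col W0 × E ι q => uf B) (fun _ => pr_uf B)
    (ch_inj (T := T) (col := col) (W0 := W0) (A := A)) fun y =>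
    (∏ _p : T.Wd (col ∘ Prod.fst) (GW W0 A), (Fintype.card (Bx B) : ℝ)) *
      (Gs T col W0 ε v A).wt (fun p => y p) / zz W0 z A * g fun p => y p
  simp only [PW_WB hK hv dA]
  refine this.trans ?_
  rw [← sum_box, sum_div]
  refine sum_congr rfl fun y _ => ?_
  have n : Nonempty (Bx B) := ⟨⟨0, by simp⟩⟩
  have : pw (fun _ : T.Wd (col ∘ Prod.fst) (GW W0 A) => uf B) y *
      ∏ _p : T.Wd (col ∘ Prod.fst) (GW W0 A), (Fintype.card (Bx B) : ℝ) = 1 := by
    rw [pw, ← prod_mul_distrib]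
    exact prod_eq_one fun _ _ => inv_mul_cancel₀ (Nat.cast_ne_zero.2 Fintype.card_ne_zero)
  exact (fun (a b w z g : ℝ) (h : a * b = 1) => (by
    rw [mul_div_assoc, mul_assoc, ← mul_assoc, h]; ring : a * (b * w / z * g) = w * g / z))
    _ _ _ _ _ this

theorem trunc_lim (hK : T.K.PosDef) (hv : ∀ μ ∈ W0, 0 < v μ) (dA : Dn A)
    (hs : Summable (Gs T col W0 ε v A).wt) {g : ((Gs T col W0 ε v A).C → ℤ) → ℝ} {M : ℝ}
    (hg : ∀ y, |g y| ≤ M) :
    Tendsto (fun B : ℕ => Ex (gl q fun _ => uf B) fun y =>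
      PW (spp T col W0) (wt (WB T col W0 ε v z B) A) y * g fun p => y (ch T col W0 A p)) atTop
      (𝓝 ((Gs T col W0 ε v A).S g / zz W0 z A)) := by
  simp only [trunc_eq hK hv dA]
  refine (tendsto_box (Summable.of_norm_bounded (hs.mul_right M) fun y => ?_)).div_const _
  have p : 0 ≤ (Gs T col W0 ε v A).wt y := (gs_pos _ _).le
  rw [norm_mul, Real.norm_of_nonneg p]
  exact mul_le_mul_of_nonneg_left (hg y) p

theorem trunc0_eq (hK : T.K.PosDef) (hv : ∀ μ ∈ W0, 0 < v μ) (B : ℕ)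
    (g : (T.Wd col W0 → ℤ) → ℝ) :
    Ex (pw fun _ => uf B) (fun x => (∏ S, WB T col W0 ε v z B S x) * g fun p => x p) =
    (∑ y ∈ Fintype.piFinset fun _ : T.Wd col W0 => Icc (-(B : ℤ)) B,
      (T.shape col W0 ε (dk v)).wt y * g y) / ∏ μ ∈ W0, z μ := by
  rw [← sum_box, sum_div]
  refine sum_congr rfl fun y _ => ?_
  have n : Nonempty (Bx B) := ⟨⟨0, by simp⟩⟩
  have a : pw (fun _ : T.Wd col W0 => uf B) y * ∏ μ ∈ W0,
      ∏ _F : {F // μ.mapDomain col = T.deg F}, (Fintype.card (Bx B) : ℝ) = 1 := by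
    rw [pw, ← (wEq T col W0).prod_comp, Fintype.prod_sigma, ← prod_coe_sort W0,
      ← prod_mul_distrib]
    refine prod_eq_one fun _ _ => ?_
    rw [← prod_mul_distrib]
    exact prod_eq_one fun _ _ => inv_mul_cancel₀ (Nat.cast_ne_zero.2 Fintype.card_ne_zero)
  unfold WB
  beta_reduce
  rw [prod_fiberwise W0 (·.support), prod_div_distrib, prod_mul_distrib, shape_wt T hK _ _ _ hv]
  exact (fun (a b w z g : ℝ) (h : a * b = 1) => (by
    rw [mul_div_assoc, mul_assoc, ← mul_assoc, h]; ring : a * (b * w / z * g) = w * g / z))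
    _ _ _ _ _ a

theorem trunc0_lim (hK : T.K.PosDef) (hv : ∀ μ ∈ W0, 0 < v μ)
    (hs : Summable (T.shape col W0 ε (dk v)).wt) {g : (T.Wd col W0 → ℤ) → ℝ} {M : ℝ}
    (hg : ∀ y, |g y| ≤ M) :
    Tendsto (fun B : ℕ => Ex (pw fun _ => uf B) fun x =>
      (∏ S, WB T col W0 ε v z B S x) * g fun p => x p) atTop
      (𝓝 ((T.shape col W0 ε (dk v)).S g / ∏ μ ∈ W0, z μ)) := by
  simp only [trunc0_eq hK hv]
  refine (tendsto_box (Summable.of_norm_bounded (hs.mul_right M) fun y => ?_)).div_const _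
  have p : 0 ≤ (T.shape col W0 ε (dk v)).wt y := (gs_pos _ _).le
  rw [norm_mul, Real.norm_of_nonneg p]
  exact mul_le_mul_of_nonneg_left (hg y) p

end Crest.Agent.N49.Gb

end
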