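import Crest.Agent.N49.Gb.Core

/-!
# Row 49 (helper24): shapes, sub-patterns, removal of the words joining two letters
-/

set_option autoImplicit false
set_option linter.unusedSectionVars false
open Finset Function

namespace Crest.Agent.N49.Gb
open L

variable {X ι V : Type*} [Fintype X] [Fintype ι] [DecidableEq ι] [Fintype V] [DecidableEq V]
  {q : ℕ}

open Classical in
/-- the weights of the shape `A` -/
noncomputable def wt (W : Finset ι → (V → X) → ℝ) (A : Finset ι → E ι q → Prop) : Fm ι V X q :=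
  fun S e x => if A S e then W S x else 1
/-- down-closed shapes -/
def Dn (A : Finset ι → E ι q → Prop) : Prop :=
  ∀ S, ∀ e ∈ P q S, A S e → ∀ T ⊆ S, A T (mask T e)
/-- weights on faces; all down-closed shapes have partition function `1 ± τ` -/
structure ZH (q : ℕ) (sp : V → Finset ι) (μ : V → X → ℝ) (W : Finset ι → (V → X) → ℝ) (τ : ℝ) :
    Prop where
  pr : ∀ v, Pr (μ v)
  dep : ∀ S, Dep sp S (W S)
  nn : ∀ S x, 0 ≤ W S x
  z : ∀ A : Finset ι → E ι q → Prop, Dn A → |Lm sp μ (wt W A) - 1| ≤ τ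

variable {sp : V → Finset ι} {μ : V → X → ℝ} {W : Finset ι → (V → X) → ℝ} {τ c : ℝ}
  {A A' : Finset ι → E ι q → Prop} {a b i j : ι} {U Z : Finset ι} {H : Fm ι V X q}

theorem wt_pos {S : Finset ι} {e : E ι q} (k : A S e) : wt W A S e = W S := funext fun _ => if_pos k
theorem wt_neg {S : Finset ι} {e : E ι q} (k : ¬ A S e) : wt W A S e = fun _ => 1 :=
  funext fun _ => if_neg k
theorem wt_iff {S : Finset ι} {e e' : E ι q} (k : A S e ↔ A' S e') : wt W A S e = wt W A' S e' := by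
  by_cases c : A S e
  · rw [wt_pos c, wt_pos (k.1 c)]
  · rw [wt_neg c, wt_neg fun d => c (k.2 d)]
theorem ZH.ok (h : ZH q sp μ W τ) (A : Finset ι → E ι q → Prop) : Ok sp (wt W A) :=
  fun S e x x' k => by unfold wt; rw [h.dep S x x' k]
theorem ZH.wn (h : ZH q sp μ W τ) (A : Finset ι → E ι q → Prop) (S : Finset ι) (e : E ι q)
    (x : V → X) : 0 ≤ wt W A S e x := by
  unfold wt; split_ifs
  · exact h.nn _ _
  · exact zero_le_one
theorem ZH.pn (h : ZH q sp μ W τ) (A : Finset ι → E ι q → Prop) (y : Cf ι V X q) :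
    0 ≤ PW sp (wt W A) y := PW_nonneg (h.wn A) y
theorem ZH.le (h : ZH q sp μ W τ) (k : Dn A) : Lm sp μ (wt W A) ≤ 1 + τ := by
  have := (abs_le.1 (h.z A k)).2; linarith
theorem ZH.t0 (h : ZH q sp μ W τ) : 0 ≤ τ :=
  (abs_nonneg _).trans (h.z (fun _ _ => True) fun _ _ _ _ _ _ => trivial)
theorem ZH.fr (h : ZH q sp μ W τ) (k : ∀ S e, A S e → j ∉ S) : Fr sp j (PW sp (wt W A)) :=
  (h.ok A).fr fun S c e _ x => congrFun (wt_neg fun d => k S e d c) x

theorem PW_cl0 (k : ∀ S, ∀ e ∈ P q S, e j ≠ 0 → H S e = fun _ => 1) (y : Cf ι V X q) :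
    PW sp H (cl sp j 0 y) = PW sp H y :=
  prod_congr rfl fun S _ => prod_congr rfl fun e he => by
    by_cases c : e j = 0
    · rw [pt_cl, ← c, update_eq_self]
    · rw [k S e he c]

theorem cl_comm (n : a ≠ b) (l l' : Fin (q + 2)) (y : Cf ι V X q) :
    cl sp a l (cl sp b l' y) = cl sp b l' (cl sp a l y) := by
  funext p
  by_cases c : a ∈ sp p.1 <;> by_cases d : b ∈ sp p.1 <;> simp [cl, c, d, update_comm n]

theorem Fr.av {T : Cf ι V X q → ℝ} (h : Fr sp i T) (j : ι) : Fr sp i (av sp μ j T) :=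
  fun y y' k => congrArg (Ex _) (funext fun _ => h _ _ fun p c => by
    unfold jn; split_ifs
    · rfl
    · exact k p c)

theorem Lm_top (H : Fm ι V X q) (F : Finset ι) {T : Finset (E ι q)} (hT : T ⊆ P q F)
    (f : (V → X) → ℝ) :
    Lm sp μ (fun S e x => H S e x * if S = F then (if e ∈ T then f x else 1) else 1) =
      Ex (gl q μ) fun y => PW sp H y * ∏ e ∈ T, f (pt sp y e) := by
  unfold Lm
  refine congrArg _ (funext fun y => ?_)
  rw [PW_mul (H' := fun S e x => if S = F then (if e ∈ T then f x else 1) else 1),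
    PW_single F fun e x => if e ∈ T then f x else 1, prod_ite_mem, inter_eq_right.2 hT]

/-- the full grid of the face opposite to `i` -/
def Gd (i : ι) (U : Finset ι) : Finset ι → E ι q → Prop := fun S e => i ∉ S ∧ e ∈ P q U

/-- **sub-patterns** of the grid of a face -/
theorem ZH.sub (h : ZH q sp μ W τ) (hi : i ∉ U) {f : (V → X) → ℝ} (df : Dep sp (univ.erase i) f)
    (f0 : ∀ x, 0 ≤ f x) (hc : 0 < c) (hg : Ex (gl q μ) (fun y => PW sp (wt W (Gd i U)) y *
      ∏ e ∈ P q U, f (pt sp y e)) ≤ c ^ #(P q U)) (dA : Dn A)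
    (hA : ∀ S, ∀ e ∈ P q S, A S e → Gd i U S e) {T : Finset (E ι q)} (hT : T ⊆ P q U)
    (hT' : ∀ e ∈ T, A (univ.erase i) e) :
    Ex (gl q μ) (fun y => PW sp (wt W A) y * ∏ e ∈ T, f (pt sp y e)) ≤ (1 + τ) * c ^ #T := by
  have UF : U ⊆ univ.erase i := fun j k => mem_erase.2 ⟨fun d => hi (d ▸ k), mem_univ _⟩
  have sc : ∀ (B : Finset ι → E ι q → Prop) (T : Finset (E ι q)),
      Ex (gl q μ) (fun y => PW sp (wt W B) y * ∏ e ∈ T, c⁻¹ * f (pt sp y e)) = (c ^ #T)⁻¹ *
      Ex (gl q μ) fun y => PW sp (wt W B) y * ∏ e ∈ T, f (pt sp y e) := fun B T => by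
    simp only [prod_mul_distrib, prod_const, inv_pow, mul_left_comm (PW sp _ _), Ex_mul]
  have := gh h.pr U (D := 1 + τ) (fun S e x => wt W A S e x *
    if S = univ.erase i then (if e ∈ T then c⁻¹ * f x else 1) else 1) (fun S e x x' k => by
      beta_reduce
      rw [h.ok A S e x x' k]
      by_cases d : S = univ.erase i
      · rw [df x x' (d ▸ k)]
      · simp only [if_neg d])
    (fun S e x => mul_nonneg (h.wn _ _ _ _) (by
      split_ifs
      · exact mul_nonneg (inv_nonneg.2 hc.le) (f0 x)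
      all_goals exact zero_le_one)) fun e0 => ?_
  · rwa [Lm_top _ _ (hT.trans (P_mono UF)) fun x => c⁻¹ * f x, sc,
      inv_mul_le_iff₀ (pow_pos hc _), mul_comm] at this
  have p1 : ∀ (S : Finset ι) (e : E ι q), (U ∩ S).piecewise e0 e ∈ P q U → e ∈ P q U :=
    fun S e k => mem_P.2 fun j m => by simpa [piecewise, m] using mem_P.1 k j m
  have p2 : ∀ e ∈ P q U, (U ∩ univ.erase i).piecewise e0 e = mask U e0 := fun e he => by
    rw [inter_eq_left.2 UF]; funext j
    by_cases m : j ∈ U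
    · simp [piecewise, mask, m]
    · simp [piecewise, mask, m, mem_P.1 he j m]
  have p3 : ∀ S, ∀ e ∈ P q S, (U ∩ S).piecewise e0 e ∈ P q S := fun S e he =>
    mem_P.2 fun j m => by simpa [piecewise, m] using mem_P.1 he j m
  by_cases m : mask U e0 ∈ T
  · have : Lm sp μ (fx U e0 fun S e x => wt W A S e x *
        if S = univ.erase i then (if e ∈ T then c⁻¹ * f x else 1) else 1) =
        Lm sp μ fun S e x => wt W (Gd i U) S e x *
          if S = univ.erase i then (if e ∈ P q U then c⁻¹ * f x else 1) else 1 := by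
      refine congrArg (Ex _) (PW_congr fun S e he => funext fun x => ?_)
      simp only [fx]
      congr 1
      · refine congrFun (wt_iff ⟨fun k => ⟨(hA S _ (p3 S e he) k).1,
          p1 S e (hA S _ (p3 S e he) k).2⟩, fun k => ?_⟩) x
        have := dA _ _ (P_mono UF (hT m)) (hT' _ m) S fun j d =>
          mem_erase.2 ⟨fun d' => k.1 (d' ▸ d), mem_univ _⟩
        convert this using 1
        funext j
        by_cases m1 : j ∈ S <;> by_cases m2 : j ∈ U
        · simp [piecewise, mask, m1, m2]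
        · simp [piecewise, mask, m1, m2, mem_P.1 k.2 j m2]
        · simp [piecewise, mask, m1, m2, mem_P.1 he j m1]
        · simp [piecewise, mask, m1, m2, mem_P.1 he j m1]
      · by_cases d : S = univ.erase i
        · subst d
          have : (U ∩ univ.erase i).piecewise e0 e ∈ T ↔ e ∈ P q U :=
            ⟨fun k => p1 _ e (hT k), fun k => by rw [p2 e k]; exact m⟩
          simp only [this]
        · simp only [if_neg d]
    rw [this, Lm_top _ _ (P_mono UF) fun x => c⁻¹ * f x, sc, inv_mul_le_iff₀ (pow_pos hc _)]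
    exact hg.trans (le_mul_of_one_le_right (by positivity) (by linarith [h.t0]))
  · have : Lm sp μ (fx U e0 fun S e x => wt W A S e x *
        if S = univ.erase i then (if e ∈ T then c⁻¹ * f x else 1) else 1) =
        Lm sp μ (wt W fun S e => A S ((U ∩ S).piecewise e0 e)) := by
      refine congrArg (Ex _) (PW_congr fun S e he => funext fun x => ?_)
      simp only [fx]
      rw [wt_iff (A' := fun S e => A S ((U ∩ S).piecewise e0 e)) (e' := e) Iff.rfl]
      refine mul_right_eq_self₀.2 (Or.inl ?_)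
      by_cases d : S = univ.erase i
      · subst d
        rw [if_pos rfl, if_neg fun k => m (by rwa [p2 e (p1 _ e (hT k))] at k)]
      · exact if_neg d
    rw [this]
    refine h.le fun S e he k T' hT' => ?_
    have := dA S _ (p3 S e he) k T' hT'
    convert this using 1
    funext j
    by_cases m1 : j ∈ T'
    · by_cases m2 : j ∈ U <;> simp [piecewise, mask, m1, m2, hT' m1]
    · simp [piecewise, mask, m1]

/-- the four kinds of faces -/
def rr (a b : ι) (Z : Finset ι) : Finset ι → E ι q → Prop := fun S e => a ∉ S ∧ b ∉ S ∧ e ∈ P q Z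
@[inherit_doc rr]
def ss (a b : ι) (Z : Finset ι) : Finset ι → E ι q → Prop := fun S e => a ∈ S ∧ b ∉ S ∧ e ∈ P q Z
@[inherit_doc rr]
def tt (a b : ι) (Z : Finset ι) : Finset ι → E ι q → Prop := fun S e => a ∈ S ∧ b ∈ S ∧ e ∈ P q Z
/-- clones `La` of `a`, clones `Lb` of `b`, joined along `T` -/
def A4 (a b : ι) (Z : Finset ι) (La Lb : Finset (Fin (q + 2)))
    (T : Finset (Fin (q + 2) × Fin (q + 2))) : Finset ι → E ι q → Prop := fun S e =>
  (∀ j ∉ Z, j ≠ a → j ≠ b → e j = 0) ∧ (a ∈ S → b ∉ S → e a ∈ La) ∧ (a ∉ S → b ∈ S → e b ∈ Lb) ∧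
    (a ∈ S → b ∈ S → (e a, e b) ∈ T)

theorem rr_comm : (rr a b Z : Finset ι → E ι q → Prop) = rr b a Z := by
  funext S e; simp only [rr, and_left_comm]

theorem A4_dn {La Lb : Finset (Fin (q + 2))} {T : Finset (Fin (q + 2) × Fin (q + 2))}
    (hT : T ⊆ La ×ˢ Lb) : Dn (A4 a b Z La Lb T) := by
  rintro S e - ⟨k0, k1, k2, k3⟩ S' hS
  refine ⟨fun j m1 m2 m3 => by simp [mask, k0 j m1 m2 m3], fun m1 _ => ?_, fun _ m2 => ?_,
    fun m1 m2 => by simpa only [mask, if_pos m1, if_pos m2] using k3 (hS m1) (hS m2)⟩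
  · simp only [mask, if_pos m1]
    by_cases d : b ∈ S
    · exact (mem_product.1 (hT (k3 (hS m1) d))).1
    · exact k1 (hS m1) d
  · simp only [mask, if_pos m2]
    by_cases d : a ∈ S
    · exact (mem_product.1 (hT (k3 d (hS m2)))).2
    · exact k2 d (hS m2)

theorem PW_A4 (n : a ≠ b) (ha : a ∉ Z) (hb : b ∉ Z) (La Lb : Finset (Fin (q + 2)))
    (T : Finset (Fin (q + 2) × Fin (q + 2))) (y : Cf ι V X q) :
    PW sp (wt W (A4 a b Z La Lb T)) y = PW sp (wt W (rr a b Z)) y *
      (∏ l ∈ La, PW sp (wt W (ss a b Z)) (cl sp a l y)) *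
      (∏ l ∈ Lb, PW sp (wt W (ss b a Z)) (cl sp b l y)) *
      ∏ p ∈ T, PW sp (wt W (tt a b Z)) (cl sp b p.2 (cl sp a p.1 y)) := by
  have pz : ∀ e : E ι q, e ∈ P q Z ↔ e a = 0 ∧ e b = 0 ∧ ∀ j ∉ Z, j ≠ a → j ≠ b → e j = 0 :=
    fun e => mem_P.trans ⟨fun k => ⟨k a ha, k b hb, fun j m _ _ => k j m⟩, fun k j m => by
      by_cases d : j = a
      · rw [d]; exact k.1
      by_cases d' : j = b
      · rw [d']; exact k.2.1
      exact k.2.2 j m d d'⟩
  have up : ∀ (e : E ι q) (l : Fin (q + 2)) (i : ι), i = a ∨ i = b →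
      ((∀ j ∉ Z, j ≠ a → j ≠ b → update e i l j = 0) ↔ ∀ j ∉ Z, j ≠ a → j ≠ b → e j = 0) :=
    fun e l i k => forall_congr' fun j => imp_congr_right fun _ => imp_congr_right fun m1 =>
      imp_congr_right fun m2 => by rw [update_of_ne (k.elim (· ▸ m1) (· ▸ m2))]
  have it : ∀ (p : Prop) [Decidable p] (G : Fm ι V X q) (y : Cf ι V X q),
      PW sp (fun S e x => if p then G S e x else 1) y = if p then PW sp G y else 1 :=
    fun p _ G y => by split_ifs; exacts [rfl, PW_one y]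
  have e1 : PW sp (om b (om a (wt W (A4 a b Z La Lb T)))) = PW sp (wt W (rr a b Z)) :=
    PW_congr fun S e he => funext fun x => by
      by_cases c : a ∈ S
      · simp [om, wt, rr, c]
      by_cases d : b ∈ S
      · simp [om, wt, rr, d]
      simp [om, wt, rr, A4, c, d, pz, mem_P.1 he a c, mem_P.1 he b d]
  have e2 : ∀ l, PW sp (sl b l (om a (wt W (A4 a b Z La Lb T)))) =
      PW sp fun S e x => if l ∈ Lb then wt W (ss b a Z) S e x else 1 := fun l =>
    PW_congr fun S e he => funext fun x => by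
      by_cases c : a ∈ S
      · simp [om, sl, wt, ss, c]
      by_cases d : b ∈ S
      · by_cases z : e b = 0 <;> by_cases m : l ∈ Lb <;>
          simp only [om, sl, wt, ss, A4, c, d, pz, mem_P.1 he a c, up e l b (Or.inr rfl), z, m,
            update_self] <;> simp
      · simp [sl, wt, ss, d]
  have e3 : ∀ l, PW sp (om b (sl a l (wt W (A4 a b Z La Lb T)))) =
      PW sp fun S e x => if l ∈ La then wt W (ss a b Z) S e x else 1 := fun l =>
    PW_congr fun S e he => funext fun x => by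
      by_cases d : b ∈ S
      · simp [om, wt, ss, d]
      by_cases c : a ∈ S
      · by_cases z : e a = 0 <;> by_cases m : l ∈ La <;>
          simp only [om, sl, wt, ss, A4, c, d, pz, mem_P.1 he b d, up e l a (Or.inl rfl), z, m,
            update_self] <;> simp
      · simp [om, sl, wt, ss, c]
  have e4 : ∀ l l', PW sp (sl b l' (sl a l (wt W (A4 a b Z La Lb T)))) =
      PW sp fun S e x => if (l, l') ∈ T then wt W (tt a b Z) S e x else 1 := fun l l' =>
    PW_congr fun S e he => funext fun x => by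
      by_cases c : a ∈ S
      swap
      · simp [sl, wt, tt, c]
      by_cases d : b ∈ S
      swap
      · simp [sl, wt, tt, d]
      by_cases z : e a = 0 <;> by_cases z' : e b = 0 <;> by_cases m : (l, l') ∈ T <;>
        simp only [sl, wt, tt, A4, c, d, pz, up _ l a (Or.inl rfl), up e l' b (Or.inr rfl), z, z',
          m, update_self, update_of_ne n, update_of_ne n.symm] <;> simp
  rw [PW_split a, PW_split b, e1]
  simp only [PW_split (H := sl a _ _) b, e2, e3, e4, it, prod_mul_distrib, prod_ite_mem, univ_inter]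
  rw [← prod_product' (f := fun l l' => if (l, l') ∈ T then
    PW sp (wt W (tt a b Z)) (cl sp b l' (cl sp a l y)) else 1), univ_product_univ]
  simp only [Prod.mk.eta, prod_ite_mem, univ_inter]
  ring

/-- **the words containing both `a` and `b` can be dropped** -/
theorem ZH.clone (h : ZH q sp μ W τ) (n : a ≠ b) (ha : a ∉ Z) (hb : b ∉ Z)
    {ga gb : Cf ι V X q → ℝ} (fa : Fr sp b ga) (fb : Fr sp a gb)
    (ca : ∀ y, ga (cl sp a 0 y) = ga y) {B : ℝ}
    (ba : ∀ y, |ga y| ≤ B) (bb : ∀ y, |gb y| ≤ B) :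
    Ex (gl q μ) (fun y => PW sp (wt W (rr a b Z)) y * PW sp (wt W (ss b a Z)) y * gb y *
      (PW sp (wt W (ss a b Z)) y * ga y * (PW sp (wt W (tt a b Z)) y - 1))) ^ 4 ≤
      16 * τ * (1 + τ) ^ 3 * B ^ 8 := by
  have n01 : (0 : Fin (q + 2)) ≠ 1 := zero_ne_one
  set r := PW sp (wt W (rr a b Z) : Fm ι V X q)
  set wa := PW sp (wt W (ss a b Z) : Fm ι V X q)
  set wb := PW sp (wt W (ss b a Z) : Fm ι V X q)
  set w := PW sp (wt W (tt a b Z) : Fm ι V X q)
  have r0 : ∀ y, 0 ≤ r y := h.pn _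
  have a0 : ∀ y, 0 ≤ wa y := h.pn _
  have b0 : ∀ y, 0 ≤ wb y := h.pn _
  have ra : Fr sp a r := h.fr fun _ _ k => k.1
  have rb : Fr sp b r := h.fr fun _ _ k => k.2.1
  have ab : Fr sp b wa := h.fr fun _ _ k => k.2.1
  have ba' : Fr sp a wb := h.fr fun _ _ k => k.2.1
  have aa : ∀ y, wa (cl sp a 0 y) = wa y :=
    PW_cl0 fun _ _ _ k => wt_neg fun d => k (mem_P.1 d.2.2 a ha)
  have bb' : ∀ y, wb (cl sp b 0 y) = wb y :=
    PW_cl0 fun _ _ _ k => wt_neg fun d => k (mem_P.1 d.2.2 b hb)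
  have wa' : ∀ y, w (cl sp a 0 y) = w y :=
    PW_cl0 fun _ _ _ k => wt_neg fun d => k (mem_P.1 d.2.2 a ha)
  have wb' : ∀ y, w (cl sp b 0 y) = w y :=
    PW_cl0 fun _ _ _ k => wt_neg fun d => k (mem_P.1 d.2.2 b hb)
  have sq_le : ∀ {u : ℝ}, |u| ≤ B → u ^ 2 ≤ B ^ 2 := fun k =>
    sq_le_sq' (abs_le.1 k).1 (abs_le.1 k).2
  have Z0 : ∀ La Lb T, T ⊆ La ×ˢ Lb → |Ex (gl q μ) (fun y => r y * (∏ l ∈ La, wa (cl sp a l y)) *
      (∏ l ∈ Lb, wb (cl sp b l y)) * ∏ p ∈ T, w (cl sp b p.2 (cl sp a p.1 y))) - 1| ≤ τ :=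
    fun La Lb T k => by
      have := h.z _ (A4_dn (a := a) (b := b) (Z := Z) k)
      rwa [Lm, funext (PW_A4 n ha hb La Lb T)] at this
  have c1 := cs h.pr (ra.mul ba') (fun y => mul_nonneg (r0 y) (b0 y)) fb
    (T := fun y => wa y * ga y * (w y - 1)) fun y => by simp only [aa, ca, wa']
  have z1 : Ex (gl q μ) (fun y => r y * wb y * gb y ^ 2) ≤ B ^ 2 * (1 + τ) := by
    have := (abs_le.1 (Z0 ∅ {0} ∅ (empty_subset _))).2
    simp only [prod_empty, prod_singleton, mul_one, bb'] at this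
    refine ((pr_gl h.pr).mono fun y => mul_le_mul_of_nonneg_left (sq_le (bb y))
      (mul_nonneg (r0 y) (b0 y))).trans ?_
    rw [Ex_mul', mul_comm]
    exact mul_le_mul_of_nonneg_left (by linarith) (sq_nonneg _)
  have c2 := cs h.pr (rb.mul (ab.mul (ab.cl a 1)))
    (fun y => mul_nonneg (r0 y) (mul_nonneg (a0 y) (a0 _))) (fa.mul (fa.cl a 1))
    (T := fun y => wb y * ((w y - 1) * (w (cl sp a 1 y) - 1))) fun y => by
      simp only [bb', wb', cl_comm n]
  have z2 : Ex (gl q μ) (fun y => r y * (wa y * wa (cl sp a 1 y)) *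
      (ga y * ga (cl sp a 1 y)) ^ 2) ≤ B ^ 2 * B ^ 2 * (1 + τ) := by
    have := (abs_le.1 (Z0 {0, 1} ∅ ∅ (empty_subset _))).2
    simp only [prod_empty, prod_pair n01, mul_one, aa] at this
    refine ((pr_gl h.pr).mono fun y => mul_le_mul_of_nonneg_left (c := B ^ 2 * B ^ 2) (by
      rw [mul_pow]; exact mul_le_mul (sq_le (ba _)) (sq_le (ba _)) (sq_nonneg _) (sq_nonneg _))
      (mul_nonneg (r0 y) (mul_nonneg (a0 y) (a0 _)))).trans ?_
    rw [Ex_mul', mul_comm]
    exact mul_le_mul_of_nonneg_left (by linarith) (by positivity)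
  have z3 : Ex (gl q μ) (fun y => r y * (wa y * wa (cl sp a 1 y)) *
      (wb y * ((w y - 1) * (w (cl sp a 1 y) - 1)) * (wb (cl sp b 1 y) * ((w (cl sp b 1 y) - 1) *
        (w (cl sp a 1 (cl sp b 1 y)) - 1))))) ≤ 16 * τ := by
    let s : Finset (Fin (q + 2) × Fin (q + 2)) := {0, 1} ×ˢ {0, 1}
    have e : ∀ y, r y * (wa y * wa (cl sp a 1 y)) *
        (wb y * ((w y - 1) * (w (cl sp a 1 y) - 1)) * (wb (cl sp b 1 y) * ((w (cl sp b 1 y) - 1) *
        (w (cl sp a 1 (cl sp b 1 y)) - 1)))) = ∑ T ∈ s.powerset, (∏ _p ∈ s \ T, (-1 : ℝ)) *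
          (r y * (∏ l ∈ {0, 1}, wa (cl sp a l y)) * (∏ l ∈ {0, 1}, wb (cl sp b l y)) *
            ∏ p ∈ T, w (cl sp b p.2 (cl sp a p.1 y))) := fun y => by
      have := prod_add (fun p : Fin (q + 2) × Fin (q + 2) => w (cl sp b p.2 (cl sp a p.1 y)))
        (fun _ => (-1 : ℝ)) s
      simp only [mul_comm (∏ _p ∈ s \ _, (-1 : ℝ)), mul_assoc, ← mul_sum]
      rw [← this, prod_product]
      simp only [prod_pair n01, aa, bb', wb']
      simp only [← cl_comm n, wa']
      ring
    have e0 : ∑ T ∈ s.powerset, ∏ _p ∈ s \ T, (-1 : ℝ) = 0 := by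
      have := prod_add (fun _ : Fin (q + 2) × Fin (q + 2) => (1 : ℝ)) (fun _ => (-1 : ℝ)) s
      simp only [prod_const_one, one_mul, add_neg_cancel] at this
      rw [← this]
      exact prod_eq_zero (i := (0, 0)) (by simp [s]) rfl
    have cs : #s.powerset = 16 := by rw [card_powerset, card_product, card_pair n01]; rfl
    rw [funext e, Ex_sum]
    simp only [Ex_mul]
    rw [← sub_zero (∑ T ∈ s.powerset, _), ← e0, ← sum_sub_distrib]
    refine (sum_le_sum (g := fun _ => τ) fun T hT => ?_).trans_eq (by simp [cs])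
    rw [← mul_sub_one]
    refine (le_abs_self _).trans ?_
    rw [abs_mul, prod_const, abs_pow, abs_neg, abs_one, one_pow, one_mul]
    exact Z0 _ _ T (mem_powerset.1 hT)
  have t0 := h.t0
  have e2 : Ex (gl q μ) (fun y => r y * wb y * (wa y * ga y * (w y - 1) *
      (wa (cl sp a 1 y) * ga (cl sp a 1 y) * (w (cl sp a 1 y) - 1)))) =
      Ex (gl q μ) fun y => r y * (wa y * wa (cl sp a 1 y)) * (ga y * ga (cl sp a 1 y)) *
        (wb y * ((w y - 1) * (w (cl sp a 1 y) - 1))) := congrArg _ (funext fun y => by ring)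
  rw [e2] at c1
  have p1 : 0 ≤ Ex (gl q μ) fun y => r y * wb y * gb y ^ 2 :=
    (pr_gl h.pr).nonneg fun y => mul_nonneg (mul_nonneg (r0 y) (b0 y)) (sq_nonneg _)
  have p2 : 0 ≤ Ex (gl q μ) fun y => r y * (wa y * wa (cl sp a 1 y)) *
      (ga y * ga (cl sp a 1 y)) ^ 2 := (pr_gl h.pr).nonneg fun y =>
    mul_nonneg (mul_nonneg (r0 y) (mul_nonneg (a0 y) (a0 _))) (sq_nonneg _)
  have c3 := c2.trans ((mul_le_mul_of_nonneg_left z3 p2).trans
    (mul_le_mul_of_nonneg_right z2 (by positivity)))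
  have c4 := pow_le_pow_left₀ (sq_nonneg _) c1 2
  rw [← pow_mul, mul_pow] at c4
  refine c4.trans ((mul_le_mul (pow_le_pow_left₀ p1 z1 2) c3 (sq_nonneg _) (sq_nonneg _)).trans_eq ?_)
  ring

end Crest.Agent.N49.Gb
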