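import Crest.Agent.N49.L.Refl

/-!
# Row 49 (helper24): grids with typed variables (Gibbs laws), cloning of one letter
-/

set_option autoImplicit false
set_option linter.unusedSectionVars false
open Finset Function

namespace Crest.Agent.N49.Gb
open L

section push
variable {X D D' : Type*} [Fintype X] [Fintype D] [DecidableEq D] [Fintype D'] [DecidableEq D']

/-- an injective selection of coordinates -/
theorem Ex_comp {μ : D' → X → ℝ} (h : ∀ d, Pr (μ d)) {φ : D → D'} (hφ : Injective φ)
    (F : (D → X) → ℝ) :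
    Ex (pw μ) (fun y => F (y ∘ φ)) = Ex (pw fun d => μ (φ d)) F := by
  classical
  have a : ∀ y : D' → X, F (y ∘ φ) = ∑ z : D → X, F z *
      ∏ d', if ∀ d, φ d = d' → y d' = z d then (1 : ℝ) else 0 := fun y => by
    simp only [prod_boole, mem_univ, forall_true_left]
    have : ∀ z : D → X, (∀ d' d, φ d = d' → y d' = z d) ↔ y ∘ φ = z := fun z =>
      ⟨fun k => funext fun d => k _ d rfl, fun k d' d e => by rw [← e, ← k]; rfl⟩
    simp only [this, mul_ite, mul_one, mul_zero, sum_ite_eq, mem_univ, if_true]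
  rw [funext a, Ex_sum]
  refine sum_congr rfl fun z _ => ?_
  rw [Ex_mul, mul_comm, Ex_prod μ fun d' x => if ∀ d, φ d = d' → x = z d then (1 : ℝ) else 0]
  congr 1
  rw [← prod_subset (subset_univ (univ.image φ)) fun d' _ k => ?_,
    prod_image fun _ _ _ _ e => hφ e]
  · refine prod_congr rfl fun d _ => ?_
    have : ∀ x, (∀ d1, φ d1 = φ d → x = z d1) ↔ x = z d := fun x =>
      ⟨fun k => k d rfl, fun k d1 e => by rw [hφ e]; exact k⟩
    simp [this, Ex]
  · have : ∀ x, (∀ d, φ d = d' → x = z d) := fun x d e =>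
      absurd (mem_image.2 ⟨d, mem_univ _, e⟩) k
    simp only [eq_true (this _), if_true]
    exact (h d').const 1

theorem Ex_curry (μ : D → X → ℝ) (F : (D' × D → X) → ℝ) :
    Ex (pw fun p : D' × D => μ p.2) F =
      Ex (pw fun _ : D' => pw μ) fun Y => F fun p => Y p.1 p.2 := by
  refine Fintype.sum_equiv (Equiv.curry D' D X) _ _ fun y => ?_
  simp only [pw, Fintype.prod_prod_type]; rfl

theorem Ex_option (ν : X → ℝ) (F : (Option D → X) → ℝ) :
    Ex (pw fun _ : Option D => ν) F =
      Ex ν fun a => Ex (pw fun _ : D => ν) fun b => F fun o => o.elim a b := by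
  have : (Ex ν fun a => Ex (pw fun _ : D => ν) fun b => F fun o => o.elim a b) =
      ∑ p : X × (D → X), ν p.1 * pw (fun _ : D => ν) p.2 * F fun o => o.elim p.1 p.2 := by
    rw [Fintype.sum_prod_type]
    simp only [Ex, mul_sum, mul_assoc]
  rw [this]
  refine Fintype.sum_equiv (Equiv.piOptionEquivProd (β := fun _ => X)) _ _ fun y => ?_
  simp only [pw, Fintype.prod_option, Equiv.piOptionEquivProd_apply]
  congr 2
  funext o; cases o <;> rfl

theorem Pr.cs {μ : X → ℝ} (h : Pr μ) {R : X → ℝ} (hR : ∀ x, 0 ≤ R x) (G T : X → ℝ) :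
    Ex μ (fun x => R x * G x * T x) ^ 2 ≤
      Ex μ (fun x => R x * G x ^ 2) * Ex μ fun x => R x * T x ^ 2 :=
  sum_sq_le_sum_mul_sum_of_sq_le_mul _
    (fun x _ => mul_nonneg (h.nn x) (mul_nonneg (hR x) (sq_nonneg _)))
    (fun x _ => mul_nonneg (h.nn x) (mul_nonneg (hR x) (sq_nonneg _))) fun _ _ => le_of_eq (by ring)

end push

variable {X ι V : Type*} [Fintype X] [Fintype ι] [DecidableEq ι] [Fintype V] [DecidableEq V]
  {q : ℕ}

/-- clone indices -/
abbrev E (ι : Type*) (q : ℕ) := ι → Fin (q + 2)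
/-- configurations of the grid -/
abbrev Cf (ι V X : Type*) (q : ℕ) := V × E ι q → X

/-- the reference law of the grid -/
def gl (q : ℕ) (μ : V → X → ℝ) : Cf ι V X q → ℝ := pw fun p => μ p.1
/-- forget the clone indices outside `S` -/
def mask (S : Finset ι) (e : E ι q) : E ι q := fun j => if j ∈ S then e j else 0
/-- the configuration seen from the vertex `e` -/
def pt (sp : V → Finset ι) (y : Cf ι V X q) (e : E ι q) : V → X := fun v => y (v, mask (sp v) e)
/-- look at the clone `l` of the letter `j` -/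
def cl (sp : V → Finset ι) (j : ι) (l : Fin (q + 2)) (y : Cf ι V X q) : Cf ι V X q :=
  fun p => if j ∈ sp p.1 then y (p.1, update p.2 j l) else y p
/-- a fresh copy of the letter `j` -/
def jn (sp : V → Finset ι) (j : ι) (y y' : Cf ι V X q) : Cf ι V X q :=
  fun p => if j ∈ sp p.1 then y' (p.1, update p.2 j 0) else y p
/-- the average over the letter `j` -/
def av (sp : V → Finset ι) (μ : V → X → ℝ) (j : ι) (T : Cf ι V X q → ℝ) (y : Cf ι V X q) : ℝ :=
  Ex (gl q μ) fun y' => T (jn sp j y y')
/-- does not see the letter `j` -/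
def Fr (sp : V → Finset ι) (j : ι) (R : Cf ι V X q → ℝ) : Prop :=
  ∀ y y', (∀ p, j ∉ sp p.1 → y p = y' p) → R y = R y'
/-- depends only on the variables inside the face `S` -/
def Dep (sp : V → Finset ι) (S : Finset ι) (G : (V → X) → ℝ) : Prop :=
  ∀ x x', (∀ v, sp v ⊆ S → x v = x' v) → G x = G x'

variable {sp : V → Finset ι} {μ : V → X → ℝ} {j i : ι} {l : Fin (q + 2)}

theorem pr_gl (h : ∀ v, Pr (μ v)) : Pr (gl (ι := ι) q μ) := Pr.pw fun p => h p.1

omit [Fintype X] [Fintype ι] [Fintype V] [DecidableEq V] in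
theorem pt_cl (y : Cf ι V X q) (e : E ι q) : pt sp (cl sp j l y) e = pt sp y (update e j l) := by
  funext v
  by_cases c : j ∈ sp v
  · simp only [pt, cl, if_pos c]
    congr 2; funext i
    by_cases d : i = j
    · subst d; simp [mask, c]
    · simp [mask, update_of_ne d]
  · simp only [pt, cl, if_neg c]
    congr 2; funext i
    by_cases d : i = j
    · subst d; simp [mask, c]
    · simp [mask, update_of_ne d]

omit [Fintype X] [Fintype ι] [Fintype V] [DecidableEq V] in
theorem Fr.mul {R R' : Cf ι V X q → ℝ} (h : Fr sp j R) (h' : Fr sp j R') :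
    Fr sp j fun y => R y * R' y := fun y y' k => by beta_reduce; rw [h y y' k, h' y y' k]

omit [Fintype X] [Fintype ι] [Fintype V] [DecidableEq V] in
theorem Fr.cl {R : Cf ι V X q → ℝ} (h : Fr sp j R) (i : ι) (l : Fin (q + 2)) :
    Fr sp j fun y => R (cl sp i l y) := fun y y' k => h _ _ fun p c => by
  unfold Gb.cl; split_ifs
  · exact k (p.1, _) c
  · exact k p c

omit [Fintype X] [Fintype ι] [Fintype V] [DecidableEq V] in
theorem Fr.cl_eq {R : Cf ι V X q → ℝ} (h : Fr sp j R) (l : Fin (q + 2)) (y : Cf ι V X q) :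
    R (Gb.cl sp j l y) = R y := h _ _ fun _ c => if_neg c

omit [Fintype X] [Fintype ι] [Fintype V] [DecidableEq V] in
theorem Dep.fr {S : Finset ι} {G : (V → X) → ℝ} (h : Dep sp S G) (c : j ∉ S) (e : E ι q) :
    Fr sp j fun y => G (pt sp y e) := fun _ _ k => h _ _ fun v hv => k (v, _) fun m => c (hv m)

/-- **the clones of a letter are independent given the other letters** -/
theorem split (h : ∀ v, Pr (μ v)) {R : Cf ι V X q → ℝ} (hR : Fr sp j R)
    (L : Finset (Fin (q + 2))) (T : Fin (q + 2) → Cf ι V X q → ℝ) :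
    Ex (gl q μ) (fun y => R y * ∏ l ∈ L, T l (cl sp j l y)) =
      Ex (gl q μ) fun y => R y * ∏ l ∈ L, av sp μ j (T l) y := by
  let φ : V × E ι q → Option (Fin (q + 2)) × (V × E ι q) := fun p =>
    if j ∈ sp p.1 then (some (p.2 j), (p.1, update p.2 j 0)) else (none, p)
  have φ1 : ∀ p, (φ p).2.1 = p.1 := fun p => by simp only [φ]; split_ifs <;> rfl
  have inj : Injective φ := fun p p' e => by
    have e1 : p.1 = p'.1 := by rw [← φ1 p, e, φ1]
    by_cases c : j ∈ sp p.1
    · simp only [φ, if_pos c, if_pos (e1 ▸ c), Prod.mk.injEq, Option.some.injEq] at e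
      refine Prod.ext e1 ?_
      funext i
      by_cases d : i = j
      · rw [d]; exact e.1
      · simpa [update_of_ne d] using congrFun e.2.2 i
    · simp only [φ, if_neg c, if_neg (e1 ▸ c), Prod.mk.injEq] at e
      exact e.2
  have a := Ex_comp (μ := fun p : Option (Fin (q + 2)) × (V × E ι q) => μ p.2.1)
    (fun p => h p.2.1) inj fun y => R y * ∏ l ∈ L, T l (cl sp j l y)
  simp only [φ1] at a
  unfold gl
  rw [← a, Ex_curry (fun p : V × E ι q => μ p.1), Ex_option]
  refine congrArg _ (funext fun y => ?_)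
  have b := Ex_prod (fun _ : Fin (q + 2) => pw fun p : V × E ι q => μ p.1)
    fun l y' => if l ∈ L then T l (jn sp j y y') else 1
  have b' : ∀ l, Ex (pw fun p : V × E ι q => μ p.1)
      (fun y' => if l ∈ L then T l (jn sp j y y') else 1) =
      if l ∈ L then av sp μ j (T l) y else 1 := fun l => by
    split_ifs
    · rfl
    · exact (pr_gl h).const 1
  simp only [b', prod_ite_mem, univ_inter] at b
  rw [← b, ← Ex_mul]
  refine congrArg _ (funext fun Y => ?_)
  congr 1
  · exact hR _ _ fun p c => by simp [φ, c]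
  · refine prod_congr rfl fun l _ => congrArg _ (funext fun p => ?_)
    by_cases c : j ∈ sp p.1 <;> simp [φ, cl, jn, c]

theorem split1 (h : ∀ v, Pr (μ v)) {R T : Cf ι V X q → ℝ} (hR : Fr sp j R)
    (hT : ∀ y, T (cl sp j 0 y) = T y) :
    Ex (gl q μ) (fun y => R y * T y) = Ex (gl q μ) fun y => R y * av sp μ j T y := by
  simpa only [prod_singleton, hT] using split h hR {0} fun _ => T

theorem split2 (h : ∀ v, Pr (μ v)) {R T : Cf ι V X q → ℝ} (hR : Fr sp j R)
    (hT : ∀ y, T (cl sp j 0 y) = T y) :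
    Ex (gl q μ) (fun y => R y * (T y * T (cl sp j 1 y))) =
      Ex (gl q μ) fun y => R y * av sp μ j T y ^ 2 := by
  simpa only [prod_pair (zero_ne_one : (0 : Fin (q + 2)) ≠ 1), hT, ← sq] using
    split h hR {0, 1} fun _ => T

/-- **Cauchy-Schwarz in the letter `j`** -/
theorem cs (h : ∀ v, Pr (μ v)) {R G T : Cf ι V X q → ℝ} (hR : Fr sp j R) (h0 : ∀ y, 0 ≤ R y)
    (hG : Fr sp j G) (hT : ∀ y, T (cl sp j 0 y) = T y) :
    Ex (gl q μ) (fun y => R y * G y * T y) ^ 2 ≤ Ex (gl q μ) (fun y => R y * G y ^ 2) *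
      Ex (gl q μ) fun y => R y * (T y * T (cl sp j 1 y)) := by
  rw [split1 h (hR.mul hG) hT, split2 h hR hT]
  exact Pr.cs (pr_gl h) h0 _ _

/-! ### products over faces -/

/-- families of factors -/
abbrev Fm (ι V X : Type*) (q : ℕ) := Finset ι → E ι q → (V → X) → ℝ

/-- the product of all factors -/
def PW (sp : V → Finset ι) (H : Fm ι V X q) (y : Cf ι V X q) : ℝ :=
  ∏ S, ∏ e ∈ P q S, H S e (pt sp y e)
/-- the grid functional -/
def Lm (sp : V → Finset ι) (μ : V → X → ℝ) (H : Fm ι V X q) : ℝ := Ex (gl q μ) (PW sp H)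
/-- every factor lives on its face -/
def Ok (sp : V → Finset ι) (H : Fm ι V X q) : Prop := ∀ S e, Dep sp S (H S e)
/-- the faces without `j` -/
def om (j : ι) (H : Fm ι V X q) : Fm ι V X q := fun S e x => if j ∈ S then 1 else H S e x
/-- the slice `l` of the faces with `j` -/
def sl (j : ι) (l : Fin (q + 2)) (H : Fm ι V X q) : Fm ι V X q :=
  fun S e x => if j ∈ S ∧ e j = 0 then H S (update e j l) x else 1
/-- the slice `l`, repeated -/
def rp (j : ι) (l : Fin (q + 2)) (H : Fm ι V X q) : Fm ι V X q :=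
  fun S e x => if j ∈ S then H S (update e j l) x else H S e x
/-- all factors replaced by those at the vertex `e0`, in the directions `U` -/
def fx (U : Finset ι) (e0 : E ι q) (H : Fm ι V X q) : Fm ι V X q :=
  fun S e x => H S ((U ∩ S).piecewise e0 e) x

variable {H H' : Fm ι V X q}

omit [Fintype X] [Fintype V] [DecidableEq V] in
theorem PW_congr (k : ∀ S, ∀ e ∈ P q S, H S e = H' S e) : PW sp H = PW sp H' :=
  funext fun _ => prod_congr rfl fun S _ => prod_congr rfl fun e he => by rw [k S e he]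

omit [Fintype X] [Fintype V] [DecidableEq V] in
theorem PW_nonneg (k : ∀ S e x, 0 ≤ H S e x) (y : Cf ι V X q) : 0 ≤ PW sp H y :=
  prod_nonneg fun _ _ => prod_nonneg fun _ _ => k _ _ _

omit [Fintype X] [Fintype V] [DecidableEq V] in
theorem PW_mul (y : Cf ι V X q) :
    PW sp (fun S e x => H S e x * H' S e x) y = PW sp H y * PW sp H' y := by
  simp only [PW, prod_mul_distrib]

omit [Fintype X] [Fintype V] [DecidableEq V] in
theorem PW_one (y : Cf ι V X q) : PW sp (fun _ _ _ => 1) y = 1 := by simp [PW]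

omit [Fintype X] [Fintype V] [DecidableEq V] in
theorem PW_single (T : Finset ι) (f : E ι q → (V → X) → ℝ) (y : Cf ι V X q) :
    PW sp (fun S e x => if S = T then f e x else 1) y = ∏ e ∈ P q T, f e (pt sp y e) := by
  unfold PW
  rw [prod_eq_single T (fun S _ c => by simp [c]) (by simp)]
  simp

omit [Fintype X] [Fintype V] [DecidableEq V] in
theorem Ok.fr (h : Ok sp H) (k : ∀ S, j ∈ S → ∀ e ∈ P q S, ∀ x, H S e x = 1) : Fr sp j (PW sp H) :=
  fun y y' m => prod_congr rfl fun S _ => prod_congr rfl fun e he => by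
    by_cases c : j ∈ S
    · rw [k S c e he, k S c e he]
    · exact (h S e).fr c e y y' m

omit [Fintype X] [Fintype ι] [Fintype V] [DecidableEq V] in
theorem Ok.om (h : Ok sp H) (j : ι) : Ok sp (om j H) := fun S e x x' k => by
  unfold Gb.om; rw [h S e x x' k]
omit [Fintype X] [Fintype ι] [Fintype V] [DecidableEq V] in
theorem Ok.sl (h : Ok sp H) (j : ι) (l : Fin (q + 2)) : Ok sp (sl j l H) := fun S e x x' k => by
  unfold Gb.sl; rw [h S _ x x' k]
omit [Fintype X] [Fintype ι] [Fintype V] [DecidableEq V] in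
theorem Ok.fx (h : Ok sp H) (U : Finset ι) (e0 : E ι q) : Ok sp (fx U e0 H) :=
  fun S _ => h S _
omit [Fintype X] [Fintype V] [DecidableEq V] in
theorem Ok.fr_om (h : Ok sp H) (j : ι) : Fr sp j (PW sp (Gb.om j H)) :=
  (h.om j).fr fun _ c _ _ _ => if_pos c

omit [Fintype X] [Fintype V] [DecidableEq V] in
/-- the product splits along the clones of `j` -/
theorem PW_split (j : ι) (y : Cf ι V X q) :
    PW sp H y = PW sp (om j H) y * ∏ l, PW sp (sl j l H) (cl sp j l y) := by
  unfold PW
  rw [prod_comm, ← prod_mul_distrib]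
  refine prod_congr rfl fun S _ => ?_
  by_cases c : j ∈ S
  · have n : j ∉ S.erase j := notMem_erase _ _
    have a := prod_rep (T := P q (S.erase j)) (j := j) (l := 0) fun e => H S e (pt sp y e)
    rw [(rep_P n).1, (rep_P n).2, insert_erase c] at a
    simp only [om, a, sl, c, true_and, pt_cl, if_true, prod_const_one, one_mul]
    refine prod_congr rfl fun l _ => ?_
    rw [← prod_filter]
    refine prod_congr ?_ fun _ _ => rfl
    ext e
    simp only [mem_filter, mem_P, mem_erase, not_and]
    exact ⟨fun k => ⟨fun i m => k i fun _ => m, k j fun d => absurd rfl d⟩, fun k i m => by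
      by_cases d : i = j
      · rw [d]; exact k.2
      · exact k.1 i (m d)⟩
  · simp [om, sl, c]

theorem Lm_split (h : ∀ v, Pr (μ v)) (hH : Ok sp H) (j : ι) :
    Lm sp μ H = Ex (gl q μ) fun y => PW sp (om j H) y * ∏ l, av sp μ j (PW sp (sl j l H)) y := by
  unfold Lm
  rw [funext (PW_split j), split h (hH.fr_om j)]

theorem Lm_rp (h : ∀ v, Pr (μ v)) (hH : Ok sp H) (j : ι) (l : Fin (q + 2)) :
    Lm sp μ (rp j l H) =
      Ex (gl q μ) fun y => PW sp (om j H) y * av sp μ j (PW sp (sl j l H)) y ^ (q + 2) := by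
  have o : Ok sp (rp j l H) := fun S e x x' k => by unfold rp; rw [hH S _ x x' k, hH S _ x x' k]
  have a : om j (rp j l H) = om j H := by
    funext S e x; by_cases c : j ∈ S <;> simp [om, rp, c]
  have b : ∀ l', sl j l' (rp j l H) = sl j l H := fun l' => by
    funext S e x; by_cases c : j ∈ S <;> simp [sl, rp, c]
  rw [Lm_split h o j, a]
  simp only [b, prod_const, card_univ, Fintype.card_fin]

/-- **Gowers-Hölder** with face- and clone-dependent factors -/
theorem gh (h : ∀ v, Pr (μ v)) (U : Finset ι) {D : ℝ} : ∀ H : Fm ι V X q, Ok sp H →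
    (∀ S e x, 0 ≤ H S e x) → (∀ e0, Lm sp μ (fx U e0 H) ≤ D) → Lm sp μ H ≤ D := by
  induction U using Finset.induction_on with
  | empty =>
    intro H _ _ k
    have : fx ∅ 0 H = H := by funext S e x; unfold fx; congr 1
    exact this ▸ k 0
  | insert j U n ih =>
    intro H o nn k
    refine ih H o nn fun e0 => ?_
    have o' := o.fx U e0
    have nn' : ∀ S e x, 0 ≤ fx U e0 H S e x := fun _ _ _ => nn _ _ _
    have r0 : ∀ y, 0 ≤ PW sp (om j (fx U e0 H)) y := PW_nonneg fun S e x => by
      unfold om; split_ifs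
      · exact zero_le_one
      · exact nn' _ _ _
    rw [Lm_split h o' j]
    refine ((pr_gl h).mono fun y => mul_le_mul_of_nonneg_left (amgm _ fun l =>
      (pr_gl h).nonneg fun _ => PW_nonneg (fun S e x => ?_) _) (r0 y)).trans ?_
    · unfold sl; split_ifs
      · exact nn' _ _ _
      · exact zero_le_one
    simp only [mul_sum, mul_left_comm (PW sp _ _), Ex_sum, Ex_mul]
    refine (sum_le_sum fun l _ => mul_le_mul_of_nonneg_left (((Lm_rp h o' j l).symm.trans
      (congrArg _ ?_)).trans_le (k (update e0 j l))) (inv_nonneg.2 (Nat.cast_nonneg _))).trans_eq ?_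
    · funext S e x
      by_cases c : j ∈ S
      · simp only [rp, fx, if_pos c]
        congr 1; funext i
        by_cases d : i = j
        · subst d; simp [piecewise, c, n]
        · simp [piecewise, d]
      · simp only [rp, fx, if_neg c]
        congr 1; funext i
        by_cases d : i = j
        · subst d; simp [piecewise, c]
        · simp [piecewise, d]
    · rw [sum_const, card_univ, Fintype.card_fin, nsmul_eq_mul, ← mul_assoc,
        mul_inv_cancel₀ (by positivity), one_mul]

/-- **one step of the Hölder chain**: `H` uses only the clone `0` of `j`; the factor `G ≤ B` is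
removed from the faces without `j` -/
theorem step (h : ∀ v, Pr (μ v)) (hq : Even q) (hH : Ok sp H)
    (h1 : ∀ S, j ∈ S → ∀ e, e j ≠ 0 → ∀ x, H S e x = 1) (h0 : ∀ y, 0 ≤ PW sp (om j H) y)
    {G : Cf ι V X q → ℝ} (hG : Fr sp j G) (g0 : ∀ y, 0 ≤ G y) {B : ℝ} (gB : ∀ y, G y ≤ B) :
    Ex (gl q μ) (fun y => G y * PW sp H y) ^ (q + 2) ≤
      Ex (gl q μ) (fun y => G y * PW sp (om j H) y) ^ (q + 1) * (B * Lm sp μ (rp j 0 H)) := by
  have a : ∀ y, G y * PW sp H y =
      G y * PW sp (om j H) y * ∏ l ∈ {0}, PW sp (sl j l H) (cl sp j l y) := fun y => by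
    rw [PW_split j, mul_assoc, ← prod_subset (subset_univ {0}) fun l _ c => ?_]
    refine (congrFun (PW_congr fun S e _ => funext fun x => ?_) _).trans (PW_one _)
    unfold sl; split_ifs with m
    · exact h1 S m.1 _ (by simpa using c) x
    · rfl
  have ev : Even (q + 1 + 1) := hq.add (by decide : Even 2)
  rw [funext a, split h (hG.mul (hH.fr_om j)), Lm_rp h hH, ← Ex_mul]
  simp only [prod_singleton]
  refine ((pr_gl h).jensen (fun y => mul_nonneg (g0 y) (h0 y)) ev).trans
    (mul_le_mul_of_nonneg_left ((pr_gl h).mono fun y => ?_)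
      (pow_nonneg ((pr_gl h).nonneg fun y => mul_nonneg (g0 y) (h0 y)) _))
  rw [mul_assoc]
  exact mul_le_mul_of_nonneg_right (gB y) (mul_nonneg (h0 y) (ev.pow_nonneg _))

end Crest.Agent.N49.Gb
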