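import Crest.Agent.N49.Gb.Lr
import Crest.Agent.N49.Tw.Shp
import Crest.Agent.N49.Tw.Base

/-!
# Row 49 (helper24): `GM` from the Master estimate
-/

set_option autoImplicit false
set_option linter.unusedSectionVars false
set_option synthInstance.maxSize 1024

open Matrix MvPolynomial Finset Function

noncomputable section

namespace Crest.Agent.N49.Gb
open L Po Tw

theorem det_bd {J : Type} [Fintype J] [DecidableEq J] {D : J → Type} [∀ j, Fintype (D j)]
    [∀ j, DecidableEq (D j)] (M : ∀ j, Matrix (D j) (D j) ℝ) :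
    (blockDiagonal' M).det = ∏ j, (M j).det := by
  let _ : LinearOrder J := LinearOrder.lift' (Fintype.equivFin J) (Equiv.injective _)
  rw [(blockTriangular_blockDiagonal' M).det_fintype]
  refine prod_congr rfl fun t _ => ?_
  let e : D t ≃ {x : Σ t, D t // x.1 = t} :=
    { toFun := fun i => ⟨⟨t, i⟩, rfl⟩
      invFun := fun x => x.2 ▸ x.1.2
      left_inv := fun i => rfl
      right_inv := by rintro ⟨⟨t', i⟩, rfl⟩; rfl }
  rw [← det_submatrix_equiv_self e]
  congr 1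
  ext i j
  simp [toSquareBlock_def, e, blockDiagonal'_apply_eq]

variable {σ ι : Type} [DecidableEq σ] [Fintype ι] [DecidableEq ι] {q : ℕ} {T : TS σ} {col : ι → σ}
  {W0 : Finset (ι →₀ ℕ)} {ε : ι → ℤ} {v : (ι →₀ ℕ) → ℝ} {τ : ℝ}

/-- the continuous partition function of one word -/
def zw (T : TS σ) (d : σ →₀ ℕ) (r : ℝ) : ℝ :=
  dt (r • T.D.submatrix (Subtype.val : {F // d = T.deg F} → T.C) Subtype.val)⁻¹

theorem pd_w (h : T.Tri) (d : σ →₀ ℕ) {r : ℝ} (hr : 0 < r) :
    (r • T.D.submatrix (Subtype.val : {F // d = T.deg F} → T.C) Subtype.val).PosDef :=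
  (h.pd_D.submatrix Subtype.val_injective).smul hr

theorem zw_pos (h : T.Tri) (d : σ →₀ ℕ) {r : ℝ} (hr : 0 < r) : 0 < zw T d r :=
  dt_pos (pd_w h d hr).inv

theorem dk_tri (h : T.Cl) (hv : ∀ μ ∈ W0, 0 < v μ) : (T.shape col W0 ε (dk v)).Tri := by
  refine TS.shape_tri' h ?_ fun μ _ ν _ k => by rw [by_contra fun n => k (if_neg n : _ = (0 : ℝ))]
  have : (Matrix.of fun μ ν : W0 => dk v μ ν) = diagonal fun μ : W0 => v μ := by
    ext μ ν; simp only [dk, diagonal_apply, of_apply, Subtype.val_inj]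
  rw [this]
  exact PosDef.diagonal fun μ => hv _ μ.2

/-- `Zc` is multiplicative over the words -/
theorem shape_Zc (h : T.Cl) (hv : ∀ μ ∈ W0, 0 < v μ) :
    (T.shape col W0 ε (dk v)).Zc = ∏ μ ∈ W0, zw T (μ.mapDomain col) (v μ) := by
  have a : (T.kr col W0 T.D (dk v)).submatrix (wEq T col W0) (wEq T col W0) =
      blockDiagonal' fun μ : W0 => v μ • T.D.submatrix
        (Subtype.val : {F // μ.1.mapDomain col = T.deg F} → T.C) Subtype.val := by
    ext ⟨μ, F⟩ ⟨μ', F'⟩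
    by_cases c : μ = μ'
    · subst c
      rw [blockDiagonal'_apply_eq]
      simp [TS.kr, wEq, dk, mul_comm]
    · rw [blockDiagonal'_apply_ne _ _ _ c]
      simp [TS.kr, wEq, dk, c]
  have b := congrArg det a
  rw [det_submatrix_equiv_self, det_bd] at b
  rw [TS.Zc, TS.shape_D h, dt_inv, dt, ← prod_coe_sort W0]
  erw [b]
  rw [Real.sqrt_prod _ fun μ _ => (pd_w h.1 _ (hv _ μ.2)).det_pos.le, inv_inv]
  exact prod_congr rfl fun μ _ => by rw [zw, dt_inv, dt, inv_inv]

theorem Gs_tri (h : T.Cl) (hv : ∀ μ ∈ W0, 0 < v μ) (A : Finset ι → E ι q → Prop) :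
    (Gs T col W0 ε v A).Tri := dk_tri h fun _ k => hv _ (mem_IW.1 (mem_GW.1 k).1).1

theorem Gs_Zc (h : T.Cl) (hv : ∀ μ ∈ W0, 0 < v μ) (A : Finset ι → E ι q → Prop) :
    (Gs T col W0 ε v A).Zc = zz W0 (fun μ => zw T (μ.mapDomain col) (v μ)) A := by
  rw [Gs, shape_Zc h fun _ k => hv _ (mem_IW.1 (mem_GW.1 k).1).1, zz,
    ← prod_IW fun μ _ => zw T (μ.mapDomain col) (v μ)]
  exact prod_congr rfl fun ν _ => by rw [Finsupp.mapDomain_comp]

/-- **`GM` from the Master estimate** on the down-closed grid shapes -/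
theorem GM.of_mas (h : T.Cl) (hv : ∀ μ ∈ W0, 0 < v μ)
    (m : ∀ A : Finset ι → E ι q → Prop, Dn A → (Gs T col W0 ε v A).Mas τ) :
    GM q T col W0 ε v (fun μ => zw T (μ.mapDomain col) (v μ)) τ where
  pd := h.1.pd
  hv := hv
  hz μ k := zw_pos h.1 _ (hv μ k)
  s0 := (dk_tri h hv).summable
  sm A _ := (Gs_tri h hv A).summable
  mas A d := by
    have p := (Gs_tri (col := col) (ε := ε) h hv A).Zc_pos
    rw [← Gs_Zc h hv, div_sub_one p.ne', abs_div, abs_of_pos p, div_le_iff₀ p]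
    exact m A d

end Crest.Agent.N49.Gb

end
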