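import Crest.Agent.N49.Gb.Br

/-!
# Row 49 (helper24): the lower bound (L) on shapes
-/

set_option autoImplicit false
set_option linter.unusedSectionVars false
set_option synthInstance.maxSize 1024

open MvPolynomial Finset Function Filter Topology

noncomputable section

namespace Crest.Agent.N49.Gb
open L Po Tw

variable {σ ι : Type} [DecidableEq σ] [Fintype ι] [DecidableEq ι] {q : ℕ} {T : TS σ} {col : ι → σ}
  {W0 : Finset (ι →₀ ℕ)} {ε : ι → ℤ} {v z : (ι →₀ ℕ) → ℝ} {τ : ℝ}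

/-- the Master estimate for all down-closed grid shapes, with multiplicative normalisation -/
structure GM (q : ℕ) (T : TS σ) (col : ι → σ) (W0 : Finset (ι →₀ ℕ)) (ε : ι → ℤ)
    (v z : (ι →₀ ℕ) → ℝ) (τ : ℝ) : Prop where
  pd : T.K.PosDef
  hv : ∀ μ ∈ W0, 0 < v μ
  hz : ∀ μ ∈ W0, 0 < z μ
  s0 : Summable (T.shape col W0 ε (dk v)).wt
  sm : ∀ A : Finset ι → E ι q → Prop, Dn A → Summable (Gs T col W0 ε v A).wt
  mas : ∀ A : Finset ι → E ι q → Prop, Dn A → |(Gs T col W0 ε v A).Z / zz W0 z A - 1| ≤ τ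

theorem S_one {σ' : Type} (G : TS σ') : G.S (fun _ => 1) = G.Z := by simp [TS.S, TS.Z]

theorem GM.zh (h : GM q T col W0 ε v z τ) {τ' : ℝ} (k : τ < τ') :
    ∀ᶠ B in atTop, ZH q (spp T col W0) (fun _ => uf B) (WB T col W0 ε v z B) τ' := by
  have : ∀ A : Finset ι → E ι q → Prop, ∀ᶠ B in atTop, Dn A →
      |Lm (spp T col W0) (fun _ => uf B) (wt (WB T col W0 ε v z B) A) - 1| ≤ τ' := fun A => by
    by_cases d : Dn A
    · have := trunc_lim (z := z) h.pd h.hv d (h.sm A d) (g := fun _ => 1) (M := 1) (by simp)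
      simp only [mul_one, S_one] at this
      filter_upwards [((this.sub_const 1).abs).eventually_le_const ((h.mas A d).trans_lt k)]
        with B hB _ using hB
    · exact .of_forall fun _ c => absurd c d
  filter_upwards [eventually_all.2 this] with B hB
  exact ⟨fun _ => pr_uf B, WB_dep B, WB_nn h.hz B, hB⟩

theorem GM.mas0 (h : GM q T col W0 ε v z τ) :
    |(T.shape col W0 ε (dk v)).Z / (∏ μ ∈ W0, z μ) - 1| ≤ τ := by
  have a := trunc_lim (z := z) h.pd h.hv (Cu_dn (U := ∅)) (h.sm _ Cu_dn) (g := fun _ => 1) (M := 1)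
    (by simp)
  have b := trunc0_lim (z := z) h.pd h.hv h.s0 (g := fun _ => 1) (M := 1) (by simp)
  have e : ∀ B, Ex (gl q fun _ => uf B) (fun y => PW (spp T col W0)
      (wt (WB T col W0 ε v z B) (Cu ∅)) y * 1) =
      Ex (pw fun _ => uf B) fun x => (∏ S, WB T col W0 ε v z B S x) * 1 := fun B => by
    rw [← Ct_empty (q := q) (sp := spp T col W0) (fun _ => pr_uf B) fun _ => 1]
    simp only [Ct, prod_const_one]
  simp only [e] at a
  have := tendsto_nhds_unique a b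
  rw [S_one] at this
  have := this.trans (congrArg (· / ∏ μ ∈ W0, z μ) (S_one (T.shape col W0 ε (dk v))))
  exact this ▸ h.mas _ Cu_dn

/-- a function of the point `t` -/
def fp (T : TS σ) (col : ι → σ) (W0 : Finset (ι →₀ ℕ)) (B : ℕ) (f : (T.C → ℤ) → ℝ) (t : ι → ℤ)
    (x : T.Wd col W0 → Bx B) : ℝ := f (T.pt col W0 (fun p => (x p).1) t)

/-- finite grid counts of a point function converge to the counts on the grid shape -/
theorem GM.ct (h : GM q T col W0 ε v z τ) {A : Finset ι → E ι q → Prop} (dA : Dn A)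
    {S U : Finset ι} (hU : U ⊆ S) (hA : ∀ e ∈ P q U, A S e) {t : ι → ℤ} (ht : ∀ j ∉ S, t j = 0)
    {f : (T.C → ℤ) → ℝ} {M : ℝ} (hf : ∀ x, |f x| ≤ M) :
    Tendsto (fun B : ℕ => Ct q (spp T col W0) (fun _ => uf B) (WB T col W0 ε v z B) A U
      (fp T col W0 B f t)) atTop (𝓝 ((Gs T col W0 ε v A).S
        (fun y => ∏ e ∈ P q U, f (vx T col W0 ε v A y t e)) / zz W0 z A)) := by
  refine (trunc_lim (z := z) h.pd h.hv dA (h.sm A dA) (M := M ^ #(P q U))
    (g := fun y => ∏ e ∈ P q U, f (vx T col W0 ε v A y t e)) fun y => ?_).congr fun B => ?_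
  · rw [abs_prod, ← prod_const]
    exact prod_le_prod (fun _ _ => abs_nonneg _) fun _ _ => hf _
  · unfold Ct
    congr 1
    funext y
    congr 1
    exact prod_congr rfl fun e he =>
      congrArg f (vx_ch dA (P_mono hU he) (hA e he) ht fun p => (y p).1)

theorem GM.lam (h : GM q T col W0 ε v z τ) {t : ι → ι → ℤ} {f : ι → (T.C → ℤ) → ℝ} {M : ℝ}
    (hf : ∀ i x, |f i x| ≤ M) (J : Finset ι) :
    Tendsto (fun B : ℕ => Lam (fun _ => uf B) (WB T col W0 ε v z B)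
      (fun i => fp T col W0 B (f i) (t i)) J) atTop (𝓝 ((T.shape col W0 ε (dk v)).S
        (fun y => ∏ i ∈ J, f i (T.pt col W0 y (t i))) / ∏ μ ∈ W0, z μ)) :=
  trunc0_lim h.pd h.hv h.s0 (M := M ^ #J) (g := fun y => ∏ i ∈ J, f i (T.pt col W0 y (t i)))
    fun y => by
      rw [abs_prod, ← prod_const]
      exact prod_le_prod (fun _ _ => abs_nonneg _) fun _ _ => hf _ _

/-- **(L) on shapes** -/
theorem GM.lrel (h : GM q T col W0 ε v z τ) (ev : Even q) (A : Finset ι) {t : ι → ι → ℤ}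
    (ht : ∀ i ∈ A, t i i = 0) {f : ι → (T.C → ℤ) → ℝ} (f0 : ∀ i x, 0 ≤ f i x) {c0 c δ η : ℝ}
    (c1 : 1 ≤ c0) (fB : ∀ i x, f i x ≤ c ^ (q + 2)) (hc : c0 * (1 + 2 * τ) ≤ c) (τ0 : 0 < τ)
    (hτ : 2 * τ ≤ η) (hη : c ^ (3 * #A) ≤ 1 + η) (d0 : 0 ≤ δ)
    (h1 : 1 + 2 * τ + 2 ^ (q + 2) ^ #A * δ ≤ c)
    (h2 : 32 * τ * (1 + 2 * τ) ^ 3 * ((c ^ (q + 2)) ^ (q + 2) ^ #A) ^ 8 ≤ δ ^ 4)
    (grid : ∀ i ∈ A, (Gs T col W0 ε v (Gd i (A.erase i))).E (fun y => ∏ e ∈ P q (A.erase i),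
      f i (vx T col W0 ε v (Gd i (A.erase i)) y (t i) e)) ≤ c0 ^ #(P q (A.erase i)))
    (mean : ∀ i ∈ A, 1 - η ≤ (T.shape col W0 ε (dk v)).E fun y => f i (T.pt col W0 y (t i)))
    (I : Finset ι) (hI : I ⊆ A) :
    1 - 3 * 20 ^ #I * η ≤
      (T.shape col W0 ε (dk v)).E fun y => ∏ i ∈ I, f i (T.pt col W0 y (t i)) := by
  have η0 : 0 < η := by linarith
  have cc : 1 + 2 * τ ≤ c := by nlinarith
  have fa : ∀ i x, |f i x| ≤ c ^ (q + 2) := fun i x => by rw [abs_of_nonneg (f0 i x)]; exact fB i x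
  have Zp : ∀ {σ' : Type} (G : TS σ'), Summable G.wt → 0 < G.Z := fun G k =>
    k.tsum_pos (fun _ => (gs_pos _ _).le) 0 (gs_pos _ _)
  have Sp : ∀ {σ' : Type} (G : TS σ') (g : (G.C → ℤ) → ℝ), (∀ y, 0 ≤ g y) → 0 ≤ G.S g :=
    fun G g k => tsum_nonneg fun y => mul_nonneg (gs_pos _ _).le (k y)
  have z0 : 0 < ∏ μ ∈ W0, z μ := prod_pos h.hz
  have m0 := abs_le.1 h.mas0
  have Z0 := Zp _ h.s0
  have lim := h.lam (t := t) fa
  have tz : ∀ i ∈ A, ∀ j ∉ univ.erase i, t i j = 0 := fun i hi j k => by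
    rw [show j = i by simpa using k]; exact ht i hi
  have e1 : ∀ i ∈ A, ∀ᶠ B in atTop, Ct q (spp T col W0) (fun _ => uf B) (WB T col W0 ε v z B)
      (Gd i (A.erase i)) (A.erase i) (fp T col W0 B (f i) (t i)) ≤
      c ^ #(P q (A.erase i)) := fun i hi => by
    refine (h.ct Gd_dn (erase_subset_erase _ (subset_univ A))
      (fun e he => ⟨notMem_erase _ _, he⟩) (tz i hi) (fa i)).eventually_le_const ?_
    have a := grid i hi
    have b := (abs_le.1 (h.mas _ (Gd_dn (i := i) (U := A.erase i)))).2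
    have zp := zz_pos (A := Gd (q := q) i (A.erase i)) h.hz
    have n1 : #(P q (A.erase i)) ≠ 0 := by rw [card_P]; positivity
    rw [TS.E, div_le_iff₀ (Zp _ (h.sm _ Gd_dn))] at a
    rw [sub_le_iff_le_add', div_le_iff₀ zp] at b
    rw [div_lt_iff₀ zp]
    refine a.trans_lt ((mul_le_mul_of_nonneg_left b (by positivity)).trans_lt ?_)
    rw [← mul_assoc]
    refine mul_lt_mul_of_pos_right (lt_of_lt_of_le ?_ (pow_le_pow_left₀ (by positivity) hc _)) zp
    rw [mul_pow]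
    exact mul_lt_mul_of_pos_left (lt_of_lt_of_le (by linarith)
      (le_self_pow₀ (by linarith) n1)) (by positivity)
  have e2 : ∀ i ∈ A, ∀ᶠ B in atTop, 1 - 2 * η ≤ Lam (fun _ => uf B) (WB T col W0 ε v z B)
      (fun i => fp T col W0 B (f i) (t i)) {i} := fun i hi => by
    refine (lim {i}).eventually_const_le ?_
    have a := mean i hi
    have s := Sp (T.shape col W0 ε (dk v)) _ fun y => f0 i (T.pt col W0 y (t i))
    rw [TS.E, le_div_iff₀ Z0] at a
    have b := m0.1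
    rw [le_sub_iff_add_le, le_div_iff₀ z0] at b
    simp only [prod_singleton]
    rw [lt_div_iff₀ z0]
    by_cases d : 1 - η ≤ 0
    · nlinarith
    · nlinarith [mul_le_mul_of_nonneg_left b (not_le.1 d).le, mul_pos τ0 η0, mul_pos z0 τ0,
        mul_pos z0 (mul_pos τ0 η0)]
  have e3 : ∀ᶠ B in atTop, 1 - 20 ^ #I * (2 * η) ≤ Lam (fun _ => uf B) (WB T col W0 ε v z B)
      (fun i => fp T col W0 B (f i) (t i)) I := by
    filter_upwards [h.zh (τ' := 2 * τ) (by linarith), (eventually_all_finset A).2 e1,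
      (eventually_all_finset A).2 e2] with B b1 b2 b3
    exact Sm.lower ⟨b1, ev, cc, fun i hi x x' k => congrArg (f i) (pt_dep (tz i hi)
      fun p m => by rw [k p m]), fun i _ x => f0 _ _, fun i _ x => fB _ _, b2⟩
      (by linarith) d0 h1 (by linarith) b3 (by linarith) I hI
  have a := ge_of_tendsto (lim I) e3
  have s := Sp (T.shape col W0 ε (dk v)) _ fun y =>
    prod_nonneg fun i (_ : i ∈ I) => f0 i (T.pt col W0 y (t i))
  have b := m0.2
  rw [sub_le_iff_le_add', div_le_iff₀ z0] at b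
  rw [le_div_iff₀ z0] at a
  rw [TS.E, le_div_iff₀ Z0]
  have p : η ≤ 20 ^ #I * η := le_mul_of_one_le_left η0.le (one_le_pow₀ (by norm_num))
  by_cases d : 1 - 3 * 20 ^ #I * η ≤ 0
  · exact (mul_nonpos_of_nonpos_of_nonneg d Z0.le).trans s
  · refine (mul_le_mul_of_nonneg_left b (not_le.1 d).le).trans (le_trans ?_ a)
    rw [← mul_assoc]
    refine mul_le_mul_of_nonneg_right ?_ z0.le
    nlinarith [mul_pos τ0 η0, mul_nonneg τ0.le (η0.le.trans p)]

end Crest.Agent.N49.Gb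

end
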