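import Crest.Agent.N49.Gb.Cl

/-!
# Row 49 (helper24): the lower bound (L) relative to a Gibbs law
-/

set_option autoImplicit false
set_option linter.unusedSectionVars false
open Finset Function

namespace Crest.Agent.N49.Gb
open L

variable {X ι V : Type*} [Fintype X] [Fintype ι] [DecidableEq ι] [Fintype V] [DecidableEq V]
  {q : ℕ} {sp : V → Finset ι} {μ : V → X → ℝ} {W : Finset ι → (V → X) → ℝ} {τ c δ : ℝ}
  {a b i j : ι} {U Z A I : Finset ι} {f g : (V → X) → ℝ}

/-- all faces, cloned in the directions `U` -/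
def Cu (U : Finset ι) : Finset ι → E ι q → Prop := fun _ e => e ∈ P q U
/-- the grid count of `f` on the shape `A`, in the directions `U` -/
noncomputable def Ct (q : ℕ) (sp : V → Finset ι) (μ : V → X → ℝ) (W : Finset ι → (V → X) → ℝ)
    (A : Finset ι → E ι q → Prop) (U : Finset ι) (f : (V → X) → ℝ) : ℝ :=
  Ex (gl q μ) fun y => PW sp (wt W A) y * ∏ e ∈ P q U, f (pt sp y e)

theorem Dep.fr_prod {S : Finset ι} (h : Dep sp S f) (c : j ∉ S) (T : Finset (E ι q))
    (φ : E ι q → ℝ → ℝ) : Fr sp j fun y => ∏ e ∈ T, φ e (f (pt sp y e)) :=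
  fun y y' k => prod_congr rfl fun e _ => congrArg _ (h.fr c e y y' k)

theorem Gd_dn : Dn (Gd i U : Finset ι → E ι q → Prop) := fun _ _ _ k _ hT =>
  ⟨fun m => k.1 (hT m), mem_P.2 fun j m => by simp [mask, mem_P.1 k.2 j m]⟩
theorem Cu_dn : Dn (Cu U : Finset ι → E ι q → Prop) := fun _ _ _ k _ _ =>
  mem_P.2 fun j m => by simp [mask, mem_P.1 k j m]

/-- the square of one tensor -/
theorem ZH.half (h : ZH q sp μ W τ) (n : a ≠ b) (ha : a ∉ Z) (hb : b ∉ Z)
    (df : Dep sp (univ.erase b) f) (f0 : ∀ x, 0 ≤ f x) (hc : 0 < c) (hZ : Z ⊆ U) (aU : a ∈ U)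
    (bU : b ∉ U) (hg : Ct q sp μ W (Gd b U) U f ≤ c ^ #(P q U))
    {α : Fin 2 → ℝ → ℝ} (hα : ∀ u v, ∑ s, α s u * α s v = 1 + u * v / 4) :
    ∑ σ : P q Z → Fin 2, Ex (gl q μ) (fun y => PW sp (wt W (rr a b Z)) y * av sp μ a (fun y =>
      PW sp (wt W (ss a b Z)) y * ∏ e : P q Z, α (σ e) (f (pt sp y e))) y ^ 2) ≤
      (1 + τ) * (1 + c ^ 2 / 4) ^ #(P q Z) := by
  have n01 : (0 : Fin (q + 2)) ≠ 1 := zero_ne_one
  have aa : ∀ y, PW sp (wt W (ss a b Z) : Fm ι V X q) (cl sp a 0 y) = PW sp (wt W (ss a b Z)) y :=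
    PW_cl0 fun _ _ _ k => wt_neg fun d => k (mem_P.1 d.2.2 a ha)
  have u0 : ∀ e : P q Z, update e.1 a 0 = e.1 := fun e => by
    rw [← mem_P.1 e.2 a ha, update_eq_self]
  have A : ∀ σ : P q Z → Fin 2, Ex (gl q μ) (fun y => PW sp (wt W (rr a b Z)) y * av sp μ a
      (fun y => PW sp (wt W (ss a b Z)) y * ∏ e : P q Z, α (σ e) (f (pt sp y e))) y ^ 2) =
      Ex (gl q μ) fun y => PW sp (wt W (A4 a b Z {0, 1} ∅ ∅)) y * ∏ e : P q Z,
        α (σ e) (f (pt sp y e)) * α (σ e) (f (pt sp y (update e.1 a 1))) := fun σ => by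
    rw [← split2 h.pr (h.fr fun _ _ k => k.1) fun y => by simp only [aa, pt_cl, u0]]
    refine congrArg _ (funext fun y => ?_)
    simp only [PW_A4 n ha hb, prod_pair n01, prod_empty, aa, pt_cl, prod_mul_distrib]
    ring
  have A' : ∀ y : Cf ι V X q, ∑ σ : P q Z → Fin 2, ∏ e : P q Z,
      α (σ e) (f (pt sp y e)) * α (σ e) (f (pt sp y (update e.1 a 1))) =
      ∏ e ∈ P q Z, (1 + 4⁻¹ * (f (pt sp y e) * f (pt sp y (update e a 1)))) := fun y => by
    rw [← Fintype.piFinset_univ, ← prod_univ_sum (fun _ => univ) fun (e : P q Z) s =>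
      α s (f (pt sp y e)) * α s (f (pt sp y (update e.1 a 1))), ← prod_coe_sort (P q Z)]
    exact prod_congr rfl fun e _ => by rw [hα]; ring
  simp only [A, ← Ex_sum, ← mul_sum, A']
  have B : (1 + c ^ 2 / 4) ^ #(P q Z) = ∑ T ∈ (P q Z).powerset, ∏ _e ∈ T, c ^ 2 / 4 := by
    rw [← prod_one_add, prod_const]
  simp only [prod_one_add, mul_sum, Ex_sum, B]
  refine sum_le_sum fun T hT => ?_
  have hT := mem_powerset.1 hT
  have z : ∀ e ∈ T, e a = 0 := fun e he => mem_P.1 (hT he) a ha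
  have inj : Set.InjOn (fun e : ι → Fin (q + 2) => update e a 1) T := fun e he e' he' k => by
    have := congrArg (update · a 0) k
    simp only [update_idem] at this
    rwa [← z e he, update_eq_self, z e he, ← z e' he', update_eq_self] at this
  have dj : Disjoint T (T.image fun e => update e a 1) := disjoint_left.2 fun e he k => by
    obtain ⟨e', -, rfl⟩ := mem_image.1 k
    exact n01 ((z _ he).symm.trans (update_self ..))
  have := h.sub bU df f0 hc hg (A4_dn (a := a) (b := b) (Z := Z) (La := {0, 1}) (Lb := ∅)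
    (empty_subset _)) (fun S e he k => by
      have bS : b ∉ S := fun m => by
        by_cases d : a ∈ S
        · exact notMem_empty _ (k.2.2.2 d m)
        · exact notMem_empty _ (k.2.2.1 d m)
      refine ⟨bS, mem_P.2 fun j m => ?_⟩
      by_cases d : j = b
      · rw [d]; exact mem_P.1 he b bS
      · exact k.1 j (fun m' => m (hZ m')) (fun d' => m (d' ▸ aU)) d)
    (T := T ∪ T.image fun e => update e a 1) (union_subset
    (hT.trans (P_mono hZ)) (image_subset_iff.2 fun e he => mem_P.2 fun j k => by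
      rw [update_of_ne fun d : j = a => k (d ▸ aU)]; exact mem_P.1 (P_mono hZ (hT he)) j k))
    fun e he => by
      refine ⟨fun j m1 m2 _ => ?_, fun _ _ => ?_, fun _ m => absurd m (notMem_erase _ _),
        fun _ m => absurd m (notMem_erase _ _)⟩
      · rcases mem_union.1 he with k | k
        · exact mem_P.1 (hT k) j m1
        · obtain ⟨e', k', rfl⟩ := mem_image.1 k
          rw [update_of_ne m2]; exact mem_P.1 (hT k') j m1
      · rcases mem_union.1 he with k | k
        · simp [z e k]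
        · obtain ⟨e', -, rfl⟩ := mem_image.1 k
          simp
  rw [card_union_of_disjoint dj, card_image_of_injOn inj] at this
  simp only [prod_union dj, prod_image inj] at this
  simp only [prod_mul_distrib, prod_const, mul_left_comm (PW sp _ _) (_ ^ _), Ex_mul]
  rw [div_eq_inv_mul, mul_pow, ← pow_mul, two_mul, mul_left_comm]
  exact mul_le_mul_of_nonneg_left this (by positivity)

/-- the end of the chain -/
theorem ZH.last (h : ZH q sp μ W τ) (n : a ≠ b) (ha : a ∉ Z) (hb : b ∉ Z)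
    (df : Dep sp (univ.erase a) f) (dg : Dep sp (univ.erase b) g) (f0 : ∀ x, 0 ≤ f x)
    (g0 : ∀ x, 0 ≤ g x) {B : ℝ} (B1 : 1 ≤ B) (fB : ∀ x, f x ≤ B) (gB : ∀ x, g x ≤ B) (hc : 0 < c)
    {U' : Finset ι} (hZ : Z ⊆ U) (hZ' : Z ⊆ U') (bU : b ∈ U) (aU : a ∉ U) (aU' : a ∈ U')
    (bU' : b ∉ U') (hf : Ct q sp μ W (Gd a U) U f ≤ c ^ #(P q U))
    (hg : Ct q sp μ W (Gd b U') U' g ≤ c ^ #(P q U')) (d0 : 0 ≤ δ)
    (hδ : 16 * τ * (1 + τ) ^ 3 * (B ^ #(P q Z)) ^ 8 ≤ δ ^ 4) :
    Ct q sp μ W (Cu Z) Z (fun x => M2 (f x) (g x)) ≤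
      (1 + τ) * (1 + c ^ 2 / 4) ^ #(P q Z) + 2 ^ #(P q Z) * δ := by
  let α : Fin 2 → ℝ → ℝ := ![fun _ => 1, fun u => u / 2]
  let β : Fin 2 → ℝ → ℝ := ![fun u => 3 / 5 + 2 / 5 * u, fun u => 4 / 5 - 3 / 10 * u]
  have h1 := h.half n.symm hb ha df f0 hc hZ bU aU hf (α := α) fun u v => by simp [α]; ring
  have h2 := h.half n ha hb dg g0 hc hZ' aU' bU' hg (α := β) fun u v => by simp [β]; ring
  rw [← rr_comm] at h1
  have ua : ∀ e : P q Z, update e.1 a 0 = e.1 := fun e => by
    rw [← mem_P.1 e.2 a ha, update_eq_self]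
  have ub : ∀ e : P q Z, update e.1 b 0 = e.1 := fun e => by
    rw [← mem_P.1 e.2 b hb, update_eq_self]
  have c0 : ∀ {A : Finset ι → E ι q → Prop} (j : ι), j ∉ Z → (∀ S e, A S e → e ∈ P q Z) → ∀ y,
      PW sp (wt W A) (cl sp j 0 y) = PW sp (wt W A) y := fun j m k =>
    PW_cl0 fun _ _ _ d => wt_neg fun d' => d (mem_P.1 (k _ _ d') j m)
  have e1 : ∀ y : Cf ι V X q, PW sp (wt W (Cu Z)) y = PW sp (wt W (rr a b Z)) y *
      PW sp (wt W (ss a b Z)) y * PW sp (wt W (ss b a Z)) y * PW sp (wt W (tt a b Z)) y :=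
    fun y => by
      simp only [← PW_mul]
      refine congrFun (PW_congr fun S e _ => funext fun x => ?_) y
      by_cases c : a ∈ S <;> by_cases d : b ∈ S <;> simp [wt, Cu, rr, ss, tt, c, d]
  have e2 : ∀ y : Cf ι V X q, ∏ e ∈ P q Z, M2 (f (pt sp y e)) (g (pt sp y e)) =
      ∑ σ : P q Z → Fin 2, (∏ e : P q Z, α (σ e) (f (pt sp y e))) *
        ∏ e : P q Z, β (σ e) (g (pt sp y e)) := fun y => by
    simp only [← prod_mul_distrib]
    rw [← Fintype.piFinset_univ, ← prod_univ_sum (fun _ => univ) fun (e : P q Z) s =>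
      α s (f (pt sp y e)) * β s (g (pt sp y e)), ← prod_coe_sort (P q Z)]
    exact prod_congr rfl fun e _ => by simp [α, β, M2]; ring
  have bd : ∀ (γ : P q Z → ℝ), (∀ e, |γ e| ≤ B) → |∏ e, γ e| ≤ B ^ #(P q Z) := fun γ k => by
    rw [abs_prod]
    refine (prod_le_prod (fun _ _ => abs_nonneg _) fun e _ => k e).trans_eq ?_
    rw [prod_const, card_univ, Fintype.card_coe]
  have key : ∀ σ : P q Z → Fin 2, Ex (gl q μ) (fun y => PW sp (wt W (Cu Z)) y *
      ((∏ e : P q Z, α (σ e) (f (pt sp y e))) * ∏ e : P q Z, β (σ e) (g (pt sp y e)))) ≤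
      2⁻¹ * Ex (gl q μ) (fun y => PW sp (wt W (rr a b Z)) y * av sp μ b (fun y =>
        PW sp (wt W (ss b a Z)) y * ∏ e : P q Z, α (σ e) (f (pt sp y e))) y ^ 2) +
      2⁻¹ * Ex (gl q μ) (fun y => PW sp (wt W (rr a b Z)) y * av sp μ a (fun y =>
        PW sp (wt W (ss a b Z)) y * ∏ e : P q Z, β (σ e) (g (pt sp y e))) y ^ 2) + δ := fun σ => by
    have fb : Fr sp a fun y : Cf ι V X q => ∏ e : P q Z, α (σ e) (f (pt sp y e)) :=
      fun y y' k => prod_congr rfl fun e _ => congrArg _ (df.fr (notMem_erase _ _) e.1 y y' k)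
    have fa : Fr sp b fun y : Cf ι V X q => ∏ e : P q Z, β (σ e) (g (pt sp y e)) :=
      fun y y' k => prod_congr rfl fun e _ => congrArg _ (dg.fr (notMem_erase _ _) e.1 y y' k)
    have k1 := h.clone n ha hb fa fb (fun y => by simp only [pt_cl, ua])
      (fun y => bd _ fun e => by
        have := g0 (pt sp y e); have := gB (pt sp y e)
        generalize σ e = s; fin_cases s <;> simp only [β, abs_le] <;> simp <;> constructor <;>
          linarith)
      (fun y => bd _ fun e => by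
        have := f0 (pt sp y e); have := fB (pt sp y e)
        generalize σ e = s; fin_cases s <;> simp only [α, abs_le] <;> simp <;> constructor <;>
          linarith)
    have k2 := (le_abs_self _).trans (le_of_pow_le_pow_left₀ (n := 4) (by norm_num) d0
      (((by decide : Even 4).pow_abs _).trans_le (k1.trans hδ)))
    have ra : Fr sp a (PW sp (wt W (rr a b Z) : Fm ι V X q)) := h.fr fun _ _ k => k.1
    have rb : Fr sp b (PW sp (wt W (rr a b Z) : Fm ι V X q)) := h.fr fun _ _ k => k.2.1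
    have s1 := split1 h.pr ((ra.mul (h.fr (A := ss b a Z) fun _ _ k => k.2.1)).mul fb)
      (T := fun y => PW sp (wt W (ss a b Z)) y * ∏ e : P q Z, β (σ e) (g (pt sp y e)))
      fun y => by simp only [pt_cl, ua, c0 (A := ss a b Z) a ha fun _ _ k => k.2.2]
    have s2 := split1 h.pr (rb.mul (((h.fr (A := ss a b Z) fun _ _ k => k.2.1).mul fa).av
      (μ := μ) a))
      (T := fun y => PW sp (wt W (ss b a Z)) y * ∏ e : P q Z, α (σ e) (f (pt sp y e)))
      fun y => by simp only [pt_cl, ub, c0 (A := ss b a Z) b hb fun _ _ k => k.2.2]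
    simp only [mul_sub, mul_one, Ex_sub] at k2
    rw [s1, sub_le_iff_le_add'] at k2
    refine (congrArg (Ex _) (funext fun y => by rw [e1]; ring)).trans_le
      (k2.trans (add_le_add_left ?_ _))
    refine ((congrArg (Ex _) (funext fun y => by ring)).trans s2).trans_le ?_
    rw [← Ex_mul, ← Ex_mul, ← Ex_add]
    refine (pr_gl h.pr).mono fun y => ?_
    have := h.pn (rr a b Z) y
    generalize PW sp (wt W (rr a b Z)) y = r at this ⊢
    generalize av sp μ a _ y = s
    generalize av sp μ b _ y = t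
    nlinarith [mul_nonneg this (sq_nonneg (s - t))]
  unfold Ct
  simp only [e2, mul_sum, Ex_sum]
  refine (sum_le_sum fun σ _ => key σ).trans ?_
  simp only [sum_add_distrib, ← mul_sum, sum_const, card_univ, Fintype.card_fun, Fintype.card_fin,
    Fintype.card_coe, nsmul_eq_mul, Nat.cast_pow, Nat.cast_ofNat]
  linarith

/-- the hypotheses: faces `F i`, `i ∈ A`, with small grid counts -/
structure Sm (q : ℕ) (sp : V → Finset ι) (μ : V → X → ℝ) (W : Finset ι → (V → X) → ℝ) (τ : ℝ)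
    (A : Finset ι) (F : ι → (V → X) → ℝ) (c : ℝ) : Prop where
  zh : ZH q sp μ W τ
  ev : Even q
  one : 1 + τ ≤ c
  dep : ∀ i ∈ A, Dep sp (univ.erase i) (F i)
  nn : ∀ i ∈ A, ∀ x, 0 ≤ F i x
  le : ∀ i ∈ A, ∀ x, F i x ≤ c ^ (q + 2)
  grid : ∀ i ∈ A, Ct q sp μ W (Gd i (A.erase i)) (A.erase i) (F i) ≤ c ^ #(P q (A.erase i))

variable {F : ι → (V → X) → ℝ}

/-- one step -/
theorem ZH.step (h : ZH q sp μ W τ) (ev : Even q) (hi : i ∉ U) {G K : (V → X) → ℝ}
    (dG : Dep sp (univ.erase i) G) (g0 : ∀ x, 0 ≤ G x) {B : ℝ} (gB : ∀ x, G x ≤ B) :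
    Ct q sp μ W (Cu U) U (fun x => G x * K x) ^ (q + 2) ≤ Ct q sp μ W (Gd i U) U G ^ (q + 1) *
      (B ^ #(P q U) * Ct q sp μ W (Cu (insert i U)) (insert i U) K) := by
  let H : Finset ι → Fm ι V X q := fun U S e x => wt W (Cu U) S e x *
    if S = univ then (if e ∈ P q U then K x else 1) else 1
  have hH : ∀ U, Ok sp (H U) := fun U S e x x' k => by
    simp only [H]
    rw [h.ok _ S e x x' k]
    by_cases d : S = univ
    · rw [show x = x' from funext fun v => k v (d ▸ subset_univ _)]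
    · simp only [if_neg d]
  have pw : ∀ U y, PW sp (H U) y = PW sp (wt W (Cu U)) y * ∏ e ∈ P q U, K (pt sp y e) :=
    fun U y => by
      rw [PW_mul (H' := fun S e x => if S = univ then (if e ∈ P q U then K x else 1) else 1),
        PW_single univ fun e x => if e ∈ P q U then K x else 1, prod_ite_mem,
        inter_eq_right.2 (P_mono (subset_univ U))]
  have o : om i (H U) = wt W (Gd i U) := by
    funext S e x
    by_cases d : i ∈ S
    · simp [om, wt, Gd, d]
    · have : S ≠ univ := fun m => d (m ▸ mem_univ _)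
      simp [om, H, wt, Gd, Cu, d, this]
  have r : PW sp (rp i 0 (H U)) = PW sp (H (insert i U)) := PW_congr fun S e he => funext fun x => by
    have k : ∀ e : E ι q, update e i 0 ∈ P q U ↔ e ∈ P q (insert i U) := fun e => by
      rw [← (rep_P hi).1, mem_rep]
    by_cases d : i ∈ S
    · simp only [rp, if_pos d, H, k]
      rw [wt_iff (A' := Cu (insert i U)) (e' := e) (k e)]
    · have k' := k e
      rw [← mem_P.1 he i d, update_eq_self] at k'
      simp only [rp, if_neg d, H, k']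
      rw [wt_iff (A' := Cu (insert i U)) (e' := e) k']
  have := Gb.step h.pr ev (hH U) (j := i) (fun S _ e k x => by
      have : e ∉ P q U := fun m => k (mem_P.1 m i hi)
      simp [H, wt, Cu, this]) (by rw [o]; exact h.pn _)
    (dG.fr_prod (notMem_erase _ _) (P q U) fun _ u => u) (fun _ => prod_nonneg fun _ _ => g0 _)
    (B := B ^ #(P q U)) fun y => by
      rw [← prod_const]; exact prod_le_prod (fun _ _ => g0 _) fun _ _ => gB _
  rw [o, Lm, r, funext (pw (insert i U))] at this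
  unfold Ct
  simp only [pw, prod_mul_distrib, mul_comm (∏ e ∈ P q U, G _)] at this ⊢
  simpa only [mul_assoc, mul_comm (∏ e ∈ P q U, G _)] using this

/-- the chain -/
theorem Sm.chain (h : Sm q sp μ W τ A F c) (hZ : Z ⊆ A) {K : (V → X) → ℝ} {D : ℝ} (hD : 0 ≤ D)
    (hK : Ct q sp μ W (Cu Z) Z K ≤ D ^ #(P q Z)) (I : Finset ι) (Y : Finset ι) (hY : Y ⊆ Z) :
    Ct q sp μ W (Cu (Z \ Y)) (Z \ Y) (fun x => (∏ i ∈ I ∩ Y, F i x) * K x) ≤
      (c ^ (3 * #Y) * D) ^ #(P q (Z \ Y)) := by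
  have t0 := h.zh.t0
  have c1 : 1 ≤ c := by linarith [h.one]
  have c0 : 0 < c := one_pos.trans_le c1
  induction Y using Finset.induction_on with
  | empty => simpa using hK
  | insert i Y hi ih =>
    have iZ := hY (mem_insert_self _ _)
    have e : Z \ Y = insert i (Z \ insert i Y) := by
      ext j; simp only [mem_sdiff, mem_insert, not_or]
      by_cases d : j = i
      · simp [d, iZ, hi]
      · simp [d]
    have ni : i ∉ Z \ insert i Y := by simp
    have ih := ih ((subset_insert _ _).trans hY)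
    rw [e, card_P_insert ni] at ih
    have n1 : 1 ≤ #(P q (Z \ insert i Y)) := by rw [card_P]; exact Nat.one_le_pow _ _ (by omega)
    set n := #(P q (Z \ insert i Y))
    have cn : (1 + τ) * c ^ n ≤ (c ^ 2) ^ n := by
      rw [sq, mul_pow]
      exact mul_le_mul_of_nonneg_right (h.one.trans (le_self_pow₀ c1 (by omega))) (by positivity)
    have key : ∀ G : (V → X) → ℝ, Dep sp (univ.erase i) G → (∀ x, 0 ≤ G x) →
        (∀ x, G x ≤ c ^ (q + 2)) →
        Ct q sp μ W (Gd i (Z \ insert i Y)) (Z \ insert i Y) G ≤ (1 + τ) * c ^ n →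
        Ct q sp μ W (Cu (Z \ insert i Y)) (Z \ insert i Y)
          (fun x => G x * ((∏ i ∈ I ∩ Y, F i x) * K x)) ≤ (c ^ (3 * #(insert i Y)) * D) ^ n :=
      fun G a1 a2 a3 a4 => by
      refine le_of_pow_le_pow_left₀ (n := q + 2) (by omega) (by positivity)
        ((h.zh.step h.ev ni a1 a2 a3).trans ?_)
      have a5 : 0 ≤ Ct q sp μ W (Gd i (Z \ insert i Y)) (Z \ insert i Y) G :=
        (pr_gl h.zh.pr).nonneg fun _ => mul_nonneg (h.zh.pn _ _) (prod_nonneg fun _ _ => a2 _)
      refine (mul_le_mul_of_nonneg_left (mul_le_mul_of_nonneg_left ih (by positivity))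
        (by positivity)).trans ((mul_le_mul_of_nonneg_right (pow_le_pow_left₀ a5 (a4.trans cn) _)
          (by positivity)).trans ?_)
      rw [card_insert_of_notMem hi]
      have : ((c ^ 2) ^ n) ^ (q + 1) ≤ ((c ^ 2) ^ n) ^ (q + 2) :=
        pow_le_pow_right₀ (one_le_pow₀ (one_le_pow₀ c1)) (by omega)
      refine (mul_le_mul_of_nonneg_right this (by positivity)).trans_eq ?_
      simp only [mul_pow, ← pow_mul]
      rw [← mul_assoc, ← mul_assoc, ← pow_add, ← pow_add]
      congr 2; ring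
    by_cases m : i ∈ I
    · have iA := hZ iZ
      have sb : Z \ insert i Y ⊆ A.erase i := fun j k =>
        mem_erase.2 ⟨fun d => ni (d ▸ k), hZ (mem_sdiff.1 k).1⟩
      have := key (F i) (h.dep i iA) (h.nn i iA) (h.le i iA) (h.zh.sub (notMem_erase _ _)
        (h.dep i iA) (h.nn i iA) c0 (h.grid i iA) Gd_dn (fun _ _ _ k => ⟨k.1, P_mono sb k.2⟩)
        (P_mono sb) fun e he => ⟨notMem_erase _ _, he⟩)
      simpa only [inter_insert_of_mem m, prod_insert fun k => hi (mem_inter.1 k).2, mul_assoc]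
        using this
    · have := key (fun _ => 1) (fun _ _ _ => rfl) (fun _ => zero_le_one)
        (fun _ => one_le_pow₀ c1) (by
          have := h.zh.le (Gd_dn (i := i) (U := Z \ insert i Y))
          simp only [Ct, prod_const_one, mul_one]
          exact this.trans (le_mul_of_one_le_right (by linarith) (one_le_pow₀ c1)))
      simpa only [inter_insert_of_notMem m, one_mul] using this

/-- the count of the faces `I` -/
def Lam (μ : V → X → ℝ) (W : Finset ι → (V → X) → ℝ) (F : ι → (V → X) → ℝ) (I : Finset ι) : ℝ :=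
  Ex (pw μ) fun x => (∏ S, W S x) * ∏ i ∈ I, F i x

theorem Ct_empty (h : ∀ v, Pr (μ v)) (K : (V → X) → ℝ) :
    Ct q sp μ W (Cu ∅) ∅ K = Ex (pw μ) fun x => (∏ S, W S x) * K x := by
  have := Ex_comp (μ := fun p : V × E ι q => μ p.1) (fun p => h p.1)
    (φ := fun v => (v, mask (sp v) 0)) (fun _ _ e => congrArg Prod.fst e)
    fun x => (∏ S, W S x) * K x
  rw [← this]
  refine congrArg (Ex _) (funext fun y => ?_)
  rw [P_empty, prod_singleton]
  congr 1
  refine prod_congr rfl fun S _ => (prod_eq_single 0 (fun e _ k => congrFun (wt_neg fun m => k ?_) _)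
    fun k => absurd (mem_P.2 fun _ _ => rfl) k).trans (congrFun (wt_pos ?_) _)
  · simpa [Cu, P_empty] using m
  · simp [Cu, P_empty]

/-- **(L), relative form** -/
theorem Sm.lower (h : Sm q sp μ W τ A F c) {η : ℝ} (hη : c ^ (3 * #A) ≤ 1 + η) (d0 : 0 ≤ δ)
    (h1 : 1 + τ + 2 ^ (q + 2) ^ #A * δ ≤ c)
    (h2 : 16 * τ * (1 + τ) ^ 3 * ((c ^ (q + 2)) ^ (q + 2) ^ #A) ^ 8 ≤ δ ^ 4)
    (hm : ∀ i ∈ A, 1 - η ≤ Lam μ W F {i}) (hτ : τ ≤ η) (I : Finset ι) (hI : I ⊆ A) :
    1 - 20 ^ #I * η ≤ Lam μ W F I := by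
  have t0 := h.zh.t0
  have η0 : 0 ≤ η := t0.trans hτ
  have c1 : 1 ≤ c := by linarith [h.one]
  have c0 : 0 < c := one_pos.trans_le c1
  induction I using Finset.strongInduction with | H I ih => ?_
  rcases I.eq_empty_or_nonempty with rfl | ⟨a, ha⟩
  · have := (abs_le.1 (h.zh.z _ (Cu_dn (U := ∅)))).1
    have e := Ct_empty (q := q) (sp := sp) (W := W) h.zh.pr fun _ => 1
    simp only [Ct, prod_const_one, mul_one] at e
    simp only [Lam, prod_empty, mul_one, ← e, card_empty, pow_zero, one_mul]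
    unfold Lm at this; linarith
  rcases (I.erase a).eq_empty_or_nonempty with e | ⟨b, hb⟩
  · obtain rfl : I = {a} := by rw [← insert_erase ha, e]; rfl
    have := hm a (hI ha)
    simp only [card_singleton]; linarith
  obtain ⟨ne, hb⟩ := mem_erase.1 hb
  obtain ⟨J, rfl, aJ, bJ⟩ : ∃ J, I = insert a (insert b J) ∧ a ∉ insert b J ∧ b ∉ J :=
    ⟨(I.erase a).erase b, by rw [insert_erase (mem_erase.2 ⟨ne, hb⟩), insert_erase ha],
      by rw [insert_erase (mem_erase.2 ⟨ne, hb⟩)]; exact notMem_erase _ _, notMem_erase _ _⟩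
  have aJ' : a ∉ J := fun k => aJ (mem_insert_of_mem k)
  have aA := hI ha
  have bA := hI hb
  have sZ : (A.erase a).erase b ⊆ A := (erase_subset _ _).trans (erase_subset _ _)
  have hJ : J ⊆ (A.erase a).erase b := fun j k => mem_erase.2 ⟨fun d => bJ (d ▸ k), mem_erase.2
    ⟨fun d => aJ' (d ▸ k), hI (mem_insert_of_mem (mem_insert_of_mem k))⟩⟩
  have nn : #(P q ((A.erase a).erase b)) ≤ (q + 2) ^ #A := by
    rw [card_P]; exact Nat.pow_le_pow_right (by omega) (card_le_card sZ)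
  have n1 : 1 ≤ #(P q ((A.erase a).erase b)) := by rw [card_P]; exact Nat.one_le_pow _ _ (by omega)
  have l0 := h.zh.last ne.symm (fun k => notMem_erase _ _ (mem_of_mem_erase k)) (notMem_erase _ _)
    (h.dep a aA) (h.dep b bA) (h.nn a aA) (h.nn b bA) (one_le_pow₀ c1) (h.le a aA) (h.le b bA) c0
    (erase_subset _ _) (by rw [erase_right_comm]; exact erase_subset _ _) (mem_erase.2 ⟨ne, bA⟩)
    (notMem_erase _ _) (mem_erase.2 ⟨ne.symm, aA⟩) (notMem_erase _ _) (h.grid a aA) (h.grid b bA)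
    d0 ((mul_le_mul_of_nonneg_left (pow_le_pow_left₀ (by positivity)
      (pow_le_pow_right₀ (one_le_pow₀ c1) nn) 8) (by positivity)).trans h2)
  have l1 : (1 + τ) * (1 + c ^ 2 / 4) ^ #(P q ((A.erase a).erase b)) +
      2 ^ #(P q ((A.erase a).erase b)) * δ ≤
      (c * (1 + c ^ 2 / 4)) ^ #(P q ((A.erase a).erase b)) := by
    have x1 : (1 : ℝ) ≤ (1 + c ^ 2 / 4) ^ #(P q ((A.erase a).erase b)) :=
      one_le_pow₀ (le_add_of_nonneg_right (by positivity))
    have x2 : (2 : ℝ) ^ #(P q ((A.erase a).erase b)) * δ ≤ 2 ^ (q + 2) ^ #A * δ :=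
      mul_le_mul_of_nonneg_right (pow_le_pow_right₀ one_le_two nn) d0
    have x3 := le_self_pow₀ c1 (Nat.one_le_iff_ne_zero.1 n1)
    have x4 : (0 : ℝ) ≤ 2 ^ #(P q ((A.erase a).erase b)) * δ := by positivity
    rw [mul_pow]
    nlinarith
  have u := h.chain sZ (by positivity) (l0.trans l1) J _ Subset.rfl
  rw [sdiff_self, bot_eq_empty, Ct_empty h.zh.pr, card_P, card_empty, pow_zero, pow_one,
    inter_eq_left.2 hJ] at u
  have v : Ex (pw μ) (fun x => (∏ S, W S x) * ((∏ i ∈ J, F i x) * M2 (F a x) (F b x))) =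
      3 / 5 * Lam μ W F J + 2 / 5 * Lam μ W F (insert a J) + 2 / 5 * Lam μ W F (insert b J) -
        3 / 20 * Lam μ W F (insert a (insert b J)) := by
    simp only [Lam, ← Ex_mul, ← Ex_add, ← Ex_sub, prod_insert aJ, prod_insert aJ', prod_insert bJ]
    exact congrArg _ (funext fun x => by unfold M2; ring)
  have w : c ^ (3 * #((A.erase a).erase b)) * (c * (1 + c ^ 2 / 4)) ≤ 5 / 4 * (1 + η) := by
    have e : #A = #((A.erase a).erase b) + 2 := by
      rw [card_erase_of_mem (mem_erase.2 ⟨ne, bA⟩), card_erase_of_mem aA]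
      have := card_le_card (insert_subset aA (singleton_subset_iff.2 bA))
      rw [card_pair ne.symm] at this; omega
    have a1 : c ^ (3 * #((A.erase a).erase b) + 1) ≤ c ^ (3 * #A) := pow_le_pow_right₀ c1 (by omega)
    have a2 : c ^ (3 * #((A.erase a).erase b) + 3) ≤ c ^ (3 * #A) :=
      pow_le_pow_right₀ c1 (by omega)
    rw [pow_add] at a1 a2; nlinarith
  have s1 : J ⊂ insert b J := ssubset_insert bJ
  have s2 : insert b J ⊂ insert a (insert b J) := ssubset_insert aJ
  have s3 : insert a J ⊂ insert a (insert b J) := by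
    rw [insert_comm]; exact ssubset_insert fun k => (mem_insert.1 k).elim ne bJ
  have i1 := ih J (s1.trans s2) ((s1.trans s2).subset.trans hI)
  have i2 := ih _ s2 (s2.subset.trans hI)
  have i3 := ih _ s3 (s3.subset.trans hI)
  rw [card_insert_of_notMem bJ, pow_succ] at i2
  rw [card_insert_of_notMem aJ', pow_succ] at i3
  rw [card_insert_of_notMem aJ, card_insert_of_notMem bJ, pow_succ, pow_succ]
  have : η ≤ 20 ^ #J * η := le_mul_of_one_le_left η0 (one_le_pow₀ (by norm_num))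
  nlinarith

end Crest.Agent.N49.Gb
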