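import Crest.Agent.N49.Ho.Shc
import Crest.Agent.N49.Br.Defs
import Crest.Agent.N49.Tw.Api

/-!
# Row 49 (helper24): Gowers–Hölder in the top-word ring: one vertex function
-/

set_option autoImplicit false
set_option linter.unusedSectionVars false

open Finset Function

noncomputable section

namespace Crest.Agent.N49.Gb
open Tw Br Ho

variable {ι : Type} [Fintype ι] [LinearOrder ι] {s : ℕ} {q : ι → ℕ} {i : ι} {a b : ℕ}
  {w ω : Pt ι}

/-- replace the clone of the block `i` by `a` -/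
def sc (i : ι) (a : ℕ) (w : Pt ι) : Pt ι := update w i ((w i).map fun _ => a)

theorem sc_self : sc i a w i = (w i).map fun _ => a := update_self ..
theorem sc_ne {j : ι} (h : j ≠ i) : sc i a w j = w j := update_of_ne h ..
theorem sc_none {j : ι} : sc i a w j = none ↔ w j = none := by
  by_cases h : j = i
  · rw [h, sc_self, Option.map_eq_none_iff]
  · rw [sc_ne h]
theorem bl_sc : bl (sc i a w) = bl w := by ext j; simp [bl, sc_none]
theorem sc_sc : sc i a (sc i b w) = sc i a w := by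
  rw [sc, sc_self, sc, update_idem, Option.map_map]; rfl
theorem sc_fix (h : w i = none ∨ w i = some a) : sc i a w = w := by
  rw [sc, update_eq_self_iff]; rcases h with h | h <;> rw [h] <;> rfl
theorem sc_grid (h : a < q i) (k : w ∈ grid q) : sc i a w ∈ grid q := by
  rw [grid, Fintype.mem_piFinset] at k ⊢
  intro j
  by_cases e : j = i
  · subst e; rw [sc_self]; cases w j <;> simp [h]
  · rw [sc_ne e]; exact k j
theorem pts_iff : ω ∈ pts q ↔ ∀ j, ∃ c < q j, ω j = some c := by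
  simp [pts, Fintype.mem_piFinset, eq_comm]
theorem sc_pts (h : a < q i) (k : w ∈ pts q) : sc i a w ∈ pts q := by
  rw [pts_iff] at k ⊢
  intro j
  by_cases e : j = i
  · subst e; obtain ⟨c, -, k⟩ := k j; exact ⟨a, h, by rw [sc_self, k]; rfl⟩
  · rw [sc_ne e]; exact k j
theorem le_sc (h : Le w ω) : Le (sc i a w) (sc i a ω) := fun j k => by
  by_cases e : j = i
  · subst e; rw [sc_self, sc_self, h j fun z => k (sc_none.2 z)]
  · rw [sc_ne e] at k ⊢; rw [sc_ne e]; exact h j k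
theorem le_fix (h : Le w (sc i a ω)) : sc i a w = w := sc_fix (by
  by_cases z : w i = none
  · exact .inl z
  · have := h i z
    rw [sc_self] at this
    rw [this]; cases ω i <;> simp)

/-- the same on words -/
def rt (i : ι) (a : Fin (q i)) (w : Wd s (grid q)) : Wd s (grid q) :=
  ⟨(w.1.1, ⟨sc i a w.tr, sc_grid a.2 w.1.2.2⟩), (congrArg card bl_sc).trans w.2⟩

variable {c d : Fin (q i)} {x : Wd s (grid q)} {V : ℕ → Pt ι → ℝ}

theorem rt_rt : rt i c (rt i d x) = rt i c x := Subtype.ext (Prod.ext rfl (Subtype.ext sc_sc))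
theorem rt_fix (h : sc i c x.tr = x.tr) : rt i c x = x := Subtype.ext (Prod.ext rfl (Subtype.ext h))

theorem rr_rt {m : Wd s (grid q) →₀ ℕ} (h : Rr x m) : Rr (rt i c x) (m.mapDomain (rt i c)) := by
  refine ⟨(TS.weight_map _ _ _).trans h.1, fun w hw => ?_, ?_⟩
  · obtain ⟨w, k, rfl⟩ := mem_image.1 (Finsupp.mapDomain_support hw)
    exact le_sc (h.2.1 w k)
  · have : ((m.mapDomain (rt i c)).support.biUnion fun w => bl w.tr) =
        m.support.biUnion fun w => bl w.tr := by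
      ext j
      simp only [mem_biUnion]
      refine ⟨fun ⟨w, hw, k⟩ => ?_, fun ⟨w, hw, k⟩ => ⟨_, TS.mem_mapD _ hw, (bl_sc (w := w.tr)).symm ▸ k⟩⟩
      obtain ⟨w, k', rfl⟩ := mem_image.1 (Finsupp.mapDomain_support hw)
      exact ⟨w, k', (bl_sc (w := w.tr)) ▸ k⟩
    rw [this]
    exact (bl_sc (w := x.tr)).symm ▸ h.2.2

variable (s q V i) in
/-- one clone in the block `i` -/
abbrev S1 : Sh Unit Unit := (tw s (grid q) V).sub fun w => sc i 0 w.tr = w.tr

theorem rt_z (h : 0 < q i) (w : (S1 s q i V).W) : rt i ⟨0, h⟩ (rt i c w.1) = w.1 :=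
  rt_rt.trans (rt_fix w.2)

theorem ex_em (h : sc i c x.tr = x.tr) : ∃ w : (S1 s q i V).W, rt i c w.1 = x :=
  ⟨⟨rt i ⟨0, c.pos⟩ x, sc_sc⟩, rt_rt.trans (rt_fix h)⟩

theorem em_inj (c : Fin (q i)) : Injective fun w : (S1 s q i V).W => rt i c w.1 := fun w w' k =>
  Subtype.ext ((rt_z c.pos w).symm.trans ((congrArg _ k).trans (rt_z c.pos w')))

theorem em_dis {w w' : (S1 s q i V).W} (h : ¬ w.1.tr i = none) (k : rt i c w.1 = rt i d w'.1) :
    c = d := by
  have : sc i c w.1.tr i = sc i d w'.1.tr i := congrArg (·.tr i) k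
  rw [sc_self, sc_self] at this
  revert this h
  cases w.1.tr i <;> cases w'.1.tr i <;> simp [Fin.ext_iff]

theorem twK (x x' : Wd s (grid q)) :
    (tw s (grid q) V).K x x' = if x = x' then V x.lv x.tr else 0 := Matrix.diagonal_apply ..

theorem shcl (hV : ∀ j w w', bl w = bl w' → V j w = V j w') (h : 0 < q i) :
    ShCl (tw s (grid q) V) (S1 s q i V) (fun w => w.1.tr i = none) fun c w => rt i c w.1 where
  inj := em_inj
  com _ _ _ k := (rt_fix (sc_fix (.inl k))).trans (rt_fix (sc_fix (.inl k))).symm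
  dis _ _ _ _ := em_dis
  sur x := by
    have := Fintype.mem_piFinset.1 x.1.2.2 i
    rcases e : x.tr i with _ | a
    · exact ⟨⟨0, h⟩, ex_em (sc_fix (.inl e))⟩
    · exact ⟨⟨a, by rw [show x.1.2.1 i = _ from e] at this; simpa using this⟩,
        ex_em (sc_fix (.inr e))⟩
  cd _ _ := rfl
  r c w m := if_congr ⟨fun k => by
      have := rr_rt (c := ⟨0, h⟩) k
      rwa [rt_z, ← Finsupp.mapDomain_comp,
        show rt i ⟨0, h⟩ ∘ (fun w : (S1 s q i V).W => rt i c w.1) = Subtype.val from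
          funext (rt_z h)] at this, fun k => by
      have := rr_rt (c := c) k
      rwa [← Finsupp.mapDomain_comp] at this⟩ rfl rfl
  loc c w m k x hx := ex_em (le_fix ((by_contra fun n => k (if_neg n) : Rr _ m).2.1 x hx))
  eps c w := if_congr (and_congr_right fun _ => by rw [show bl (rt i c w.1).tr = _ from bl_sc])
    rfl rfl
  idl w m p k w' hw := by_contra fun n => n
    (((by_contra fun n => k (if_neg n) : Rr w.1 _).2.1 _ (TS.mem_mapD _ hw) i n).trans p)
  hK c w w' := (twK _ _).trans ((if_congr (((em_inj c).eq_iff (a := w) (b := w')).trans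
    Subtype.ext_iff) (hV _ _ _ bl_sc) rfl).trans (twK w.1 w'.1).symm)
  hK0 c d w w' n k _ := Matrix.diagonal_apply_ne _ fun e => n (em_dis k e)
  sep w w' k k' := (twK w.1 w'.1).trans (if_neg fun e : w.1 = w'.1 => k' (e ▸ k))

theorem prod_pts (i : ι) (F : Pt ι → ℝ) : ∏ ω ∈ pts q, F ω =
    ∏ c : Fin (q i), ∏ ω ∈ pts q with sc i 0 ω = ω, F (sc i c ω) := by
  rw [← prod_fiberwise_of_maps_to (t := range (q i)) (g := fun ω => (ω i).getD 0) fun ω k => by
    obtain ⟨c, k1, k2⟩ := pts_iff.1 k i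
    rw [k2]; exact mem_range.2 k1, prod_range]
  refine prod_congr rfl fun c _ => ?_
  have f : ∀ ω ∈ (pts q).filter fun ω => (ω i).getD 0 = c.1, sc i c ω = ω := fun ω k => by
    obtain ⟨k1, k2⟩ := mem_filter.1 k
    obtain ⟨e, -, k3⟩ := pts_iff.1 k1 i
    rw [k3] at k2
    exact sc_fix (.inr (k3.trans (congrArg some k2)))
  refine prod_nbij' (sc i 0) (sc i c) (fun ω k => mem_filter.2 ⟨sc_pts c.pos (mem_filter.1 k).1,
    sc_sc⟩) (fun ω k => mem_filter.2 ⟨sc_pts c.2 (mem_filter.1 k).1, ?_⟩)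
    (fun ω k => sc_sc.trans (f ω k)) (fun ω k => sc_sc.trans (mem_filter.1 k).2)
    fun ω k => by rw [sc_sc, f ω k]
  obtain ⟨e, -, k3⟩ := pts_iff.1 (mem_filter.1 k).1 i
  rw [sc_self, k3]; rfl

variable {T : TS Unit} {st : T.C → ℕ} {M : ℕ}

theorem pw_sc (h : sc i 0 ω = ω) (c : Fin (q i)) (y : T.Cw (tw s (grid q) V) → ℤ) :
    T.pw _ (chi V (sc i c ω)) y = T.pw (S1 s q i V) (fun w => chi V ω w.1) fun p =>
      y (fc T (S₁ := S1 s q i V) (f := fun w => rt i c w.1) (fun _ => rfl) p) := by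
  refine (pw_fc (S₁ := S1 s q i V) (f := fun w => rt i c w.1) (fun _ => rfl) (em_inj c)
    (χ := chi V (sc i c ω)) (fun x k => if_neg fun e =>
      let ⟨w, e⟩ := ex_em (V := V) (le_fix e); k w e) y).trans ?_
  congr 1
  funext w
  refine if_congr ⟨fun k => ?_, le_sc⟩ rfl rfl
  have := le_sc (i := i) (a := 0) k
  rwa [show (rt i c w.1).tr = sc i c w.1.tr from rfl, sc_sc, sc_sc, h, w.2] at this

theorem ev_rt (h : ω ∈ pts q) (c : Fin (q i)) (P : MvPolynomial (Wd s (grid q)) ℝ) :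
    MvPolynomial.eval (fun w => (chi V ω w : ℝ))
      ((tw s (grid q) V).pu (tw s (grid q) V) (pj (rt i c)) P) =
      MvPolynomial.eval (fun w => (chi V (sc i c ω) w : ℝ)) P := by
  obtain ⟨b, hb, e⟩ := pts_iff.1 h i
  have f : sc i b ω = ω := sc_fix (.inr e)
  have k : ∀ x : Wd s (grid q), ∑ w : Wd s (grid q), pj (rt i c) w x * chi V ω w =
      chi V (sc i c ω) x := fun x => by
    by_cases l : Le x.tr (sc i c ω)
    · have l' := le_sc (i := i) (a := b) l
      rw [sc_sc, f] at l'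
      rw [sum_eq_single (rt i ⟨b, hb⟩ x) (fun w _ n => ?_) (by simp), chi, chi, if_pos l,
        if_pos (show Le (rt i ⟨b, hb⟩ x).tr ω from l'), mul_one]
      · exact if_pos (rt_rt.trans (rt_fix (le_fix l))).symm
      · by_contra z
        obtain rfl : x = rt i c w := by_contra fun n => left_ne_zero_of_mul z (if_neg n)
        have : Le w.tr (sc i b ω) := f.symm ▸ by_contra fun n => right_ne_zero_of_mul z (if_neg n)
        exact n (rt_rt.trans (rt_fix (c := ⟨b, hb⟩) (le_fix this))).symm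
    · refine (sum_eq_zero fun w _ => by_contra fun z => l ?_).trans (if_neg l).symm
      obtain rfl : x = rt i c w := by_contra fun n => left_ne_zero_of_mul z (if_neg n)
      exact le_sc (by_contra fun n => right_ne_zero_of_mul z (if_neg n))
  induction P using MvPolynomial.induction_on with
  | C a => rw [Sh.pu_eq, MvPolynomial.algHom_C]; simp
  | add P Q a b => simp only [map_add, a, b]
  | mul_X P x a =>
    rw [map_mul, map_mul, map_mul, a, Sh.pu_eq, hA_X', MvPolynomial.eval_X, ← k]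
    simp [Sh.el]

variable (T s q V) in
/-- the point tower seen at `ω` -/
def Pe (Ψ : T.Twd (tw s (grid q) V)) (ω : Pt ι) (F : T.C) : MvPolynomial T.C ℝ :=
  MvPolynomial.map (MvPolynomial.eval fun w => (chi V ω w : ℝ)) (Ψ F)

variable (T s q V) in
/-- the grid count -/
def Gc (Ψ : T.Twd (tw s (grid q) V)) (g : Pt ι → (T.C → ℤ) → ℝ) : ℝ :=
  (T.tw _ Ψ).S fun y => ∏ ω ∈ pts q, g ω (T.pw _ (chi V ω) y)

theorem gh_blk (hV : ∀ j w w', bl w = bl w' → V j w = V j w') (o : (tw s (grid q) V).Ok)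
    (hs : T.Stg st M) (h : 0 < q i) {Ψ : T.Twd (tw s (grid q) V)} (hΨ : T.Adm _ st Ψ)
    {g : Pt ι → (T.C → ℤ) → ℝ} (g0 : ∀ ω x, 0 ≤ g ω x) (gb : ∀ ω, Bb (g ω)) :
    ∃ a < q i, ∃ Ψ', T.Adm _ st Ψ' ∧ (∀ ω ∈ pts q, Pe s q V T Ψ' ω = Pe s q V T Ψ (sc i a ω)) ∧
      Gc s q V T Ψ g ≤ Gc s q V T Ψ' fun ω => g (sc i a ω) := by
  have ad : ∀ c : Fin (q i), T.Adm _ st (T.tp _ (tw s (grid q) V) (pj (rt i c)) Ψ) := fun c =>
    hΨ.tp fun v' v k => by
      obtain rfl : v = rt i c v' := by_contra fun n => k (if_neg n)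
      rfl
  obtain ⟨c, hc⟩ := (shcl (s := s) hV h).gh (rt := rt i) (fun _ _ _ => rt_rt)
    (TS.lw_tri hs hΨ o) (fun c => TS.lw_tri hs (ad c) o) ⟨0, h⟩ (G0 := fun _ => 1)
    (G := fun c y => ∏ ω ∈ pts q with sc i 0 ω = ω,
      g (sc i c ω) (T.pw (S1 s q i V) (fun w => chi V ω w.1) y))
    (fun _ _ _ => rfl) (fun _ => zero_le_one) (fun _ _ => prod_nonneg fun _ _ => g0 _ _)
    (Bb.const _) fun _ => Bb.prod _ fun _ _ => (gb _).comp _
  refine ⟨c, c.2, _, ad c, fun ω k => funext fun F => (MvPolynomial.map_map ..).trans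
    (congrArg (MvPolynomial.map · (Ψ F)) (RingHom.ext (ev_rt k c))), ?_⟩
  unfold Gc
  simp only [prod_pts (q := q) i, sc_sc]
  simp only [one_mul] at hc
  refine (congrArg _ (funext fun y => ?_)).trans_le (hc.trans_eq (congrArg _ (funext fun y => ?_)))
    <;> exact prod_congr rfl fun d _ => prod_congr rfl fun ω k => by rw [pw_sc (mem_filter.1 k).2]

/-- **Gowers–Hölder in the top-word ring** -/
theorem gh_tw (hV : ∀ j w w', bl w = bl w' → V j w = V j w') (o : (tw s (grid q) V).Ok)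
    (hs : T.Stg st M) (h : ∀ i, 0 < q i) {Ψ : T.Twd (tw s (grid q) V)} (hΨ : T.Adm _ st Ψ)
    {g : Pt ι → (T.C → ℤ) → ℝ} (g0 : ∀ ω x, 0 ≤ g ω x) (gb : ∀ ω, Bb (g ω)) :
    ∃ ω0 ∈ pts q, ∃ Ψ', T.Adm _ st Ψ' ∧ (∀ ω ∈ pts q, Pe s q V T Ψ' ω = Pe s q V T Ψ ω0) ∧
      Gc s q V T Ψ g ≤ Gc s q V T Ψ' fun _ => g ω0 := by
  have k : ∀ U : Finset ι, ∃ ρ : Pt ι → Pt ι, (∀ ω ∈ pts q, ρ ω ∈ pts q) ∧
      (∀ ω ω', (∀ j, j ∉ U → ω j = ω' j) → ω ∈ pts q → ω' ∈ pts q → ρ ω = ρ ω') ∧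
      ∃ Ψ', T.Adm _ st Ψ' ∧ (∀ ω ∈ pts q, Pe s q V T Ψ' ω = Pe s q V T Ψ (ρ ω)) ∧
        Gc s q V T Ψ g ≤ Gc s q V T Ψ' fun ω => g (ρ ω) := fun U => by
    induction U using Finset.induction_on with
    | empty => exact ⟨id, fun _ k => k, fun _ _ k _ _ => funext fun j => k j (notMem_empty _), Ψ, hΨ,
        fun _ _ => rfl, le_rfl⟩
    | insert i U hi ih =>
      obtain ⟨ρ, h0, h1, Ψ1, h2, h2', h3⟩ := ih
      obtain ⟨a, h4, Ψ2, h5, h5', h6⟩ := gh_blk hV o hs (h i) h2 (fun ω => g0 (ρ ω)) fun _ => gb _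
      refine ⟨fun ω => ρ (sc i a ω), fun ω k => h0 _ (sc_pts h4 k), fun ω ω' k l l' =>
        h1 _ _ (fun j n => ?_) (sc_pts h4 l) (sc_pts h4 l'), Ψ2, h5,
        fun ω k => (h5' ω k).trans (h2' _ (sc_pts h4 k)), h3.trans h6⟩
      by_cases c : j = i
      · obtain ⟨_, -, e⟩ := pts_iff.1 l i
        obtain ⟨_, -, e'⟩ := pts_iff.1 l' i
        rw [c, sc_self, sc_self, e, e']; rfl
      · rw [sc_ne c, sc_ne c, k j (by simp [c, n])]
  obtain ⟨ρ, h0, h1, Ψ', h2, h2', h3⟩ := k univ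
  have z : (fun _ => some 0 : Pt ι) ∈ pts q := pts_iff.2 fun j => ⟨_, h j, rfl⟩
  have e := fun ω k => h1 ω _ (fun j n => absurd (mem_univ j) n) k z
  exact ⟨_, h0 _ z, Ψ', h2, fun ω k => e ω k ▸ h2' ω k, h3.trans_eq (congrArg (T.tw _ Ψ').S
    (funext fun y => prod_congr rfl fun ω k => congrFun (congrArg g (e ω k)) _))⟩

end Crest.Agent.N49.Gb

end
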