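import Crest.Agent.N49.Gb.Un1
import Crest.Agent.N49.Tw.Ap2
import Crest.Agent.N49.Rf.Nar

/-!
# Row 49 (helper24): narrowing a twisted law, transfer along a split surjection, `UNIF`
-/

set_option autoImplicit false
set_option linter.unusedSectionVars false

open Matrix MvPolynomial Finset Function

noncomputable section

namespace Crest.Agent.N49.Gb
open Po Tw Br Ho

section
variable {σ τ τ' : Type} [DecidableEq σ] {T : TS σ} {S : Sh σ τ} {S' : Sh σ τ'} {st : T.C → ℕ}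
  {M C n : ℕ} {a η B : ℝ} {Ψ : T.Twd S}

theorem adm_setK (h : T.Adm S st Ψ) (K : Matrix S.W S.W ℝ) : T.Adm (S.setK K) st Ψ :=
  ⟨h.gr, h.le, h.top⟩

/-- an offset is a twist -/
theorem adm_off (hs : T.Stg st M) (h : T.Adm S st Ψ) (x : T.Cw S → ℝ) :
    T.Adm S st fun F => Ψ F - MvPolynomial.C (T.Yw S x F) where
  gr F m := by
    classical
    rw [coeff_sub, coeff_C]
    split_ifs with e
    · subst e
      refine (h.gr F 0).sub ?_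
      rw [map_zero]; exact TS.Yw_dg x F
    · rw [sub_zero]; exact h.gr F m
  le F m hm := by
    classical
    by_cases e : 0 = m
    · subst e; simp
    · rw [mem_support_iff, coeff_sub, coeff_C, if_neg e, sub_zero] at hm
      exact h.le F m (mem_support_iff.2 hm)
  top F m k := by
    classical
    rw [coeff_sub, coeff_C, if_neg, sub_zero, h.top F m k]
    rintro rfl
    exact (hs.cl.1.lev_pos F).ne (by simpa using k)

theorem u_off (o : S.Ok) (x y : T.Cw S → ℝ) (p : T.Cw S) :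
    (T.tw S fun F => Ψ F - MvPolynomial.C (T.Yw S x F)).u y p = (T.tw S Ψ).u y p - x p := by
  refine (TS.tw_u y p).trans ?_
  rw [map_sub, eval_C, map_sub, TS.cf_Yw o x p]
  exact congrArg (· - x p) (TS.tw_u y p).symm

theorem N_off (G : TS σ) (K : Matrix G.C G.C ℝ) (x : G.C → ℝ) (Φ : G.C → MvPolynomial G.C ℝ)
    (hu : ∀ y p, (G.setΦ Φ).u y p = G.u y p - x p) (hA : (G.setΦ Φ).A = G.A) (g : (G.C → ℤ) → ℝ) :
    ((G.setK K).off x).N g = ((G.setΦ Φ).setK K).N g := by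
  refine congrArg₂ (· / ·) (tsum_congr fun y => congrArg (· * g y) ?_) ?_
  · exact (TS.off_wt (G.setK K) x y).trans (congrArg (gs K⁻¹) (funext fun p => (hu (zc y) p).symm))
  · rw [TS.off_Zc, TS.Zc_eq, TS.Zc_eq, TS.setK_A, TS.setK_A, hA]
    rfl

/-- **narrowing** a twisted law -/
theorem nar_tw (hs : T.Stg st M) (h : T.Adm S st Ψ) (o : S.Ok) {K : Matrix S.W S.W ℝ}
    (o1 : (S.setK K).Ok) (hK : (K - S.K).PosSemidef) {g : (T.Cw S → ℤ) → ℝ} (hg : Bb g) :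
    ∃ x : T.Cw S → ℝ, (T.lw (S.setK K) st Ψ).N g ≤
      (T.lw S st fun F => Ψ F - MvPolynomial.C (T.Yw S x F)).N g := by
  have p : (T.kw S T.K K - T.kw S T.K S.K).PosSemidef := by
    have := (hs.cl.1.pd.posSemidef.kronecker hK).submatrix (Subtype.val : T.Cw S → _)
    refine (congrArg _ (Matrix.ext fun p p' => ?_)).mp this
    exact mul_sub (T.K p.1.1 p'.1.1) _ _
  have t : ((T.lw S st Ψ).setK (T.kw S T.K K)).Tri := TS.lw_tri hs (adm_setK h K) o1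
  obtain ⟨x, -, hx⟩ := t.nar_psd (K1 := T.kw S T.K S.K) (TS.kw_posDef hs.cl.1.pd o.pd) p hg
  have e : ∀ Ψ1 : T.Twd S, T.Adm S st Ψ1 → (∀ y p, (T.tw S Ψ1).u y p = (T.tw S Ψ).u y p - x p) →
      (((T.lw S st Ψ).setK (T.kw S T.K S.K)).off x).N g = (T.lw S st Ψ1).N g :=
    fun Ψ1 a u => N_off (T.lw S st Ψ) (T.kw S T.K S.K) x (T.tw S Ψ1).Φ u
      ((TS.lw_A hs a o).trans (TS.lw_A hs h o).symm) g
  exact ⟨x, hx.trans_eq (e _ (adm_off hs h x) (u_off o x))⟩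

theorem pw_hm {φ : Matrix S'.W S.W ℤ} (hc : ∀ w' w, φ w' w ≠ 0 → S'.cd w' = S.cd w)
    (χ : S'.W → ℤ) (y : T.Cw S → ℤ) : T.pw S' χ (T.hm S S' φ y) = T.pw S (χ ᵥ* φ) y := by
  funext F
  simp only [TS.pw, TS.hm, mul_sum]
  rw [sum_congr rfl (g := fun p' : T.Cw S' => ∑ p : T.Cw S with p.1.1 = F,
    χ p'.1.2 * (φ p'.1.2 p.1.2 * y p)) fun p' k => by rw [(mem_filter.1 k).2], sum_comm]
  refine sum_congr rfl fun p k => ?_
  rw [TS.sum_cw (S := S') F fun w => χ w * (φ w p.1.2 * y p), vecMul, dotProduct, sum_mul,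
    sum_filter_of_ne fun w _ z => ?_]
  · simp only [mul_assoc]
  · rw [hc w _ (left_ne_zero_of_mul (right_ne_zero_of_mul z)), p.2, (mem_filter.1 k).2]

theorem N_le {σ' : Type} {G : TS σ'} (h : G.Tri) (m : G.Mas η) {g : (G.C → ℤ) → ℝ}
    (g0 : ∀ y, 0 ≤ g y) : G.N g ≤ (1 + η) * G.E g := by
  have := (abs_le.1 m).2
  rw [TS.N, TS.E, ← mul_div_assoc, div_le_div_iff₀ h.Zc_pos h.Z_pos]
  nlinarith [TS.S_nonneg (T := G) g0]

theorem le_N {σ' : Type} {G : TS σ'} (h : G.Tri) (m : G.Mas η) {g : (G.C → ℤ) → ℝ}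
    (g0 : ∀ y, 0 ≤ g y) : (1 - η) * G.E g ≤ G.N g := by
  have := (abs_le.1 m).1
  rw [TS.N, TS.E, ← mul_div_assoc, div_le_div_iff₀ h.Z_pos h.Zc_pos]
  nlinarith [TS.S_nonneg (T := G) g0]

/-- **transfer**: a law on `S'` is dominated by a law on a cover `S` with a smaller covariance -/
theorem trf (ma : MAST M C) (mh : MARHT M C) (hs : T.Stg st M) (η0 : 0 < η) (η1 : η ≤ 1)
    (rg : T.RgS st M C n a η) (sz : S.Sz n a) (sz' : S'.Sz n a)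
    {φ : Matrix S'.W S.W ℤ} {ψ : Matrix S.W S'.W ℤ} {J : Type} [Fintype J] [DecidableEq J]
    {N : Matrix S.W J ℤ} {Q : Matrix J S.W ℤ} {cj : J → σ →₀ ℕ} (H : S.Spl S' n φ ψ N Q cj)
    {K : Matrix S'.W S'.W ℝ} (o : (S'.setK K).Ok) (hK : (K - S'.K).PosSemidef)
    {Ψ' : T.Twd S'} (h : T.Adm S' st Ψ') {g : (T.Cw S' → ℤ) → ℝ} (g0 : ∀ y, 0 ≤ g y)
    (gB : ∀ y, g y ≤ B) : ∃ Ψ : T.Twd S, T.Adm S st Ψ ∧ (T.lw (S'.setK K) st Ψ').N g ≤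
      (1 + η) * ((T.tw S Ψ).E (fun y => g (T.hm S S' φ y)) + B * η) := by
  obtain ⟨x, hx⟩ := nar_tw hs h sz'.toOk o hK (.of_mem g0 gB)
  have a1 := adm_off hs h x
  have a2 := a1.tp (S' := S) (φ := ψ) fun v' v z => by
    rw [← Sh.cd_degree, ← Sh.cd_degree, H.cψ v' v z]
  have p := (mh _ _ _ J T S st _ n a η S' φ ψ N Q cj ⟨hs, a2, η0, η1, rg, sz⟩ H).E (g := g)
    (B := B) fun y => by rw [abs_of_nonneg (g0 y)]; exact gB y
  rw [TS.tp_tp, H.φψ, TS.tp_one] at p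
  refine ⟨_, a2, hx.trans ((N_le (TS.lw_tri hs a1 sz'.toOk)
    (ma _ _ T _ st _ n a η ⟨hs, a1, η0, η1, rg, sz'⟩) g0).trans
      (mul_le_mul_of_nonneg_left ?_ (by linarith)))⟩
  exact sub_le_iff_le_add'.1 (abs_sub_le_iff.1 p).2

end

variable {ι τ' : Type} [Fintype ι] [LinearOrder ι] {s : ℕ} {q : ι → ℕ} {V : ℕ → Pt ι → ℝ}
  {T : TS Unit} {st : T.C → ℕ} {M C n : ℕ} {a η B : ℝ}

/-- Gowers–Hölder for expectations -/
theorem gh_E (ma : MAST M C) (hV : ∀ j w w', bl w = bl w' → V j w = V j w') (hq : ∀ i, 0 < q i)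
    {Ψ : T.Twd (tw s (grid q) V)} (h : T.Hy _ st Ψ M C n a η)
    {g : Pt ι → (T.C → ℤ) → ℝ} (g0 : ∀ ω x, 0 ≤ g ω x) (gb : ∀ ω, Bb (g ω)) :
    ∃ ω0 ∈ pts q, ∃ Ψ', T.Adm _ st Ψ' ∧ (∀ ω ∈ pts q, Pe s q V T Ψ' ω = Pe s q V T Ψ ω0) ∧
      (1 - η) * (T.tw _ Ψ).E (fun y => ∏ ω ∈ pts q, g ω (T.pw _ (chi V ω) y)) ≤
        (1 + η) * (T.tw _ Ψ').E fun y => ∏ ω ∈ pts q, g ω0 (T.pw _ (chi V ω) y) := by
  obtain ⟨ω0, h0, Ψ', h1, h2, h3⟩ := gh_tw hV h.sz.toOk h.stg hq h.adm g0 gb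
  have h' : T.Hy _ st Ψ' M C n a η := ⟨h.stg, h1, h.pos, h.le, h.rg, h.sz⟩
  refine ⟨ω0, h0, Ψ', h1, h2, (le_N h.tri (ma _ _ T _ st _ n a η h) fun _ =>
    prod_nonneg fun _ _ => g0 _ _).trans (le_trans ?_ (N_le h'.tri (ma _ _ T _ st _ n a η h')
      fun _ => prod_nonneg fun _ _ => g0 _ _))⟩
  rw [TS.N, TS.N, TS.lw_Zc h.stg h1 h.sz.toOk, ← TS.lw_Zc h.stg h.adm h.sz.toOk]
  exact div_le_div_of_nonneg_right h3 h.tri.Zc_pos.le

/-- **UNIF**: from any law on a quotient `S'` of the top-word ring to one vertex function -/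
theorem unif (ma : MAST M C) (mh : MARHT M C) (hV : ∀ j w w', bl w = bl w' → V j w = V j w')
    (hq : ∀ i, 0 < q i) (hs : T.Stg st M) (η0 : 0 < η) (η1 : η ≤ 1) (rg : T.RgS st M C n a η)
    (sz : (tw s (grid q) V).Sz n a) {S' : Sh Unit τ'} {K : Matrix S'.W S'.W ℝ}
    (sz' : S'.Sz n a) {φ : Matrix S'.W (tw s (grid q) V).W ℤ}
    {ψ : Matrix (tw s (grid q) V).W S'.W ℤ} {J : Type} [Fintype J] [DecidableEq J]
    {N : Matrix (tw s (grid q) V).W J ℤ} {Q : Matrix J (tw s (grid q) V).W ℤ} {cj : J → Unit →₀ ℕ}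
    (H : (tw s (grid q) V).Spl S' n φ ψ N Q cj) (o : (S'.setK K).Ok) (hK : (K - S'.K).PosSemidef)
    {χ : Pt ι → S'.W → ℤ} (hχ : ∀ ω ∈ pts q, χ ω ᵥ* φ = chi V ω)
    {Ψ' : T.Twd S'} (h : T.Adm S' st Ψ') {g : Pt ι → (T.C → ℤ) → ℝ} (g0 : ∀ ω x, 0 ≤ g ω x)
    (gB : ∀ ω x, g ω x ≤ B) :
    ∃ ω0 ∈ pts q, ∃ Ψ : T.Twd (tw s (grid q) V), T.Adm _ st Ψ ∧
      (∀ ω ∈ pts q, Pe s q V T Ψ ω = Pe s q V T Ψ ω0) ∧
      (1 - η) * (T.lw (S'.setK K) st Ψ').N (fun y => ∏ ω ∈ pts q, g ω (T.pw S' (χ ω) y)) ≤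
        (1 + η) * ((1 + η) * (T.tw _ Ψ).E (fun y => ∏ ω ∈ pts q, g ω0 (T.pw _ (chi V ω) y)) +
          B ^ #(pts q) * η) := by
  obtain ⟨Ψ1, a1, h1⟩ := trf ma mh hs η0 η1 rg sz sz' H o hK h (B := B ^ #(pts q))
    (g := fun y => ∏ ω ∈ pts q, g ω (T.pw S' (χ ω) y)) (fun _ => prod_nonneg fun _ _ => g0 _ _)
    fun _ => by rw [← prod_const]; exact prod_le_prod (fun _ _ => g0 _ _) fun _ _ => gB _ _
  obtain ⟨ω0, h0, Ψ, a2, h2, h3⟩ := gh_E ma hV hq ⟨hs, a1, η0, η1, rg, sz⟩ g0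
    fun ω => .of_mem (g0 ω) (gB ω)
  refine ⟨ω0, h0, Ψ, a2, fun ω k => (h2 ω k).trans (h2 ω0 h0).symm, ?_⟩
  have e : (fun y => ∏ ω ∈ pts q, g ω (T.pw S' (χ ω) (T.hm _ S' φ y))) =
      fun y => ∏ ω ∈ pts q, g ω (T.pw _ (chi V ω) y) := funext fun y =>
    prod_congr rfl fun ω k => by rw [pw_hm H.hm.cd, hχ ω k]
  erw [e] at h1
  have b : 0 ≤ B ^ #(pts q) * η := mul_nonneg (pow_nonneg ((g0 ω0 0).trans (gB _ _)) _) η0.le
  refine (mul_le_mul_of_nonneg_left h1 (sub_nonneg.2 η1)).trans ?_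
  rw [mul_left_comm]
  refine mul_le_mul_of_nonneg_left ?_ (by linarith)
  rw [mul_add]
  exact add_le_add h3 (mul_le_of_le_one_left b (by linarith))

end Crest.Agent.N49.Gb

end
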